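import Vale.Agent.P180.Defs

/-!
Blocks of group algebras over a commutative ring `R` (a field `k` or a complete discrete valuation
ring `O`), and their defect groups.
-/

namespace Vale.Agent.P180

universe u

section Blocks

variable {R : Type u} [CommRing R] {G : Type} [Group G]

/-- `b` is a block idempotent of `RG`, that is, a primitive idempotent of the centre of `RG`. -/
structure IsBlockR (b : MonoidAlgebra R G) : Prop where
  central : b ∈ Subalgebra.center R (MonoidAlgebra R G)
  idem : IsIdempotentElem b
  ne_zero : b ≠ 0
  primitive : ∀ c ∈ Subalgebra.center R (MonoidAlgebra R G),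
    IsIdempotentElem c → c * b = c → c = 0 ∨ c = b

/-- The block algebra `RGb`, with identity element `b`. -/
abbrev IsBlockR.Alg {b : MonoidAlgebra R G} (hb : IsBlockR b) : Type u := hb.idem.Corner

open MonoidAlgebra in
/-- The `R[G × G]`-module `RGb`, with `(x, y) • a = x a y⁻¹`, is a direct summand of the
`R[G × G]`-module `V` given by `σ`: there are `R[G × G]`-linear maps `i` from `RGb` to `V` and `q`
from `V` to `RGb` with `q ∘ i = id`. (Here `i` is given as an `R[G × G]`-linear map on all of `RG`,
which is no restriction since `RGb` is a direct summand of `RG`.) -/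
def IsSummandOfR (b : MonoidAlgebra R G) {V : Type*} [AddCommGroup V] [Module R V]
    (σ : Representation R (G × G) V) : Prop :=
  ∃ (i : MonoidAlgebra R G →ₗ[R] V) (q : V →ₗ[R] MonoidAlgebra R G),
    (∀ (x y : G) (a : MonoidAlgebra R G),
      i (single x 1 * a * single y⁻¹ 1) = σ (x, y) (i a)) ∧
    (∀ (x y : G) (v : V), q (σ (x, y) v) = single x 1 * q v * single y⁻¹ 1) ∧
    (∀ v, q v * b = q v) ∧ ∀ a, a * b = a → q (i a) = a

/-- The `R[G × G]`-module `RGb` is a direct summand of a module induced from the diagonal subgroup
`{(x, x) : x ∈ D}`. -/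
def IsSummandOfInducedR (b : MonoidAlgebra R G) (D : Subgroup G) : Prop :=
  ∃ (W : Type u) (_ : AddCommGroup W) (_ : Module R W) (ρ : Representation R D W),
    IsSummandOfR b (Representation.ind (diagHom D) ρ)

/-- `D` is a defect group of the block algebra `RGb`. -/
def IsDefectGroupR (b : MonoidAlgebra R G) (D : Subgroup G) : Prop :=
  Minimal (IsSummandOfInducedR b) D

end Blocks

end Vale.Agent.P180
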