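import Vale.Agent.P180.Int.HO

set_option linter.all false
set_option linter.style.haveILetI false

/-!
The determinant trick over `O`.
-/

namespace Vale.Agent.P180.I

open IsLocalRing
open Vale.Agent.P180 (cst)

section Det

variable {O : Type*} [CommRing O] [IsDomain O] [IsDiscreteValuationRing O]
variable [IsAdicComplete (maximalIdeal O) O]
variable {G : Type*} [Group G] [Finite G] {C : Type*} [CommGroup C] [Finite C]
variable {N : Subgroup G} [N.Normal] {κ : C →* G} {i j : MonoidAlgebra O G}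
variable {hi : IsIdempotentElem i} {hN : Sp (N : Set G) i}
variable {r : ℕ} {v : Fin r → MonoidAlgebra O G}

theorem PO.ext (hv : PO N κ j i v) {l l' : Fin r → MonoidAlgebra O C}
    (h : ∑ a, kp O κ (l a) * v a = ∑ a, kp O κ (l' a) * v a) : l = l' := by
  have h1 : ∑ a, kp O κ ((l - l') a) * v a = 0 := by
    have : ∀ a, kp O κ ((l - l') a) * v a = kp O κ (l a) * v a - kp O κ (l' a) * v a := by
      intro a
      rw [Pi.sub_apply, map_sub, sub_mul]
    simp only [this]
    rw [Finset.sum_sub_distrib, h, sub_self]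
  exact sub_eq_zero.mp (hv.ind _ h1)

/-- The matrix of `m ↦ d m u⁻¹`. -/
def MO (κ : C →* G) (v : Fin r → MonoidAlgebra O G) (d : G) (u : HO N hi hN)
    (M : Matrix (Fin r) (Fin r) (MonoidAlgebra O C)) : Prop :=
  ∀ l, MonoidAlgebra.single d 1 * v l * ho u⁻¹ = ∑ m, kp O κ (M m l) * v m

theorem MO.unique (hvf : PO N κ j i v) {d : G} {u : HO N hi hN}
    {M M' : Matrix (Fin r) (Fin r) (MonoidAlgebra O C)} (h : MO κ v d u M)
    (h' : MO κ v d u M') : M = M' := by
  ext m l : 1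
  have h1 := hvf.ext ((h l).symm.trans (h' l))
  exact congrFun h1 m

theorem MO.exists (hvf : PO N κ j i v) {d : G}
    (hjd : cg O d j = j) {u : HO N hi hN} (hu : dg u = (d : G ⧸ N)) :
    ∃ M, MO κ v d u M := by
  have h1 : ∀ l, MonoidAlgebra.single d 1 * v l * ho u⁻¹ ∈ PM N j i := by
    intro l
    refine ⟨?_, ?_, ?_⟩
    · rw [← sp_one_iff]
      have h2 : Sp (cst N (d : G ⧸ N)) (MonoidAlgebra.single d (1 : O)) :=
        Sp.single (S := cst N (d : G ⧸ N)) rfl _
      have h3 : Sp (cst N 1) (v l) := sp_one_iff.mpr (hvf.mem l).1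
      have h4 := sp_ho u⁻¹
      rw [map_inv, hu] at h4
      have h5 := sp_mul_cst (sp_mul_cst h2 h3) h4
      rwa [mul_one, mul_inv_cancel] at h5
    · rw [← mul_assoc, ← mul_assoc]
      have h2 : j * MonoidAlgebra.single d (1 : O) = MonoidAlgebra.single d 1 * j := by
        rw [← cg_mul_single, hjd]
      rw [h2, mul_assoc _ j, (hvf.mem l).2.1]
    · rw [mul_assoc, ho_i]
  choose M hM using fun l => hvf.span _ (h1 l)
  exact ⟨fun m l => M l m, fun l => hM l⟩

theorem MO.mul (h : IO N κ i) {α : G →* MulAut C} (hα : KP.ConjData κ α) {d d' : G}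
    {u u' : HO N hi hN}
    {M M' : Matrix (Fin r) (Fin r) (MonoidAlgebra O C)} (hM : MO κ v d u M)
    (hM' : MO κ v d' u' M') :
    MO κ v (d * d') (u * u') (M * M'.map (la O α d)) := by
  intro l
  have h1 : MonoidAlgebra.single (d * d') (1 : O) =
      MonoidAlgebra.single d 1 * MonoidAlgebra.single d' 1 := by
    rw [MonoidAlgebra.single_mul_single, one_mul]
  have h2 : MonoidAlgebra.single (d * d') 1 * v l * ho (u * u')⁻¹ =
      MonoidAlgebra.single d 1 * (MonoidAlgebra.single d' 1 * v l * ho u'⁻¹) * ho u⁻¹ := by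
    rw [mul_inv_rev, ho_mul, h1]
    simp only [mul_assoc]
  rw [h2, hM' l, Finset.mul_sum, Finset.sum_mul]
  have h3 : ∀ m, MonoidAlgebra.single d 1 * (kp O κ (M' m l) * v m) * ho u⁻¹ =
      ∑ n, kp O κ (M n m * la O α d (M' m l)) * v n := by
    intro m
    have hs : Sp (cst N (d : G ⧸ N)) (MonoidAlgebra.single d (1 : O)) :=
      Sp.single (S := cst N (d : G ⧸ N)) rfl _
    rw [← mul_assoc, mul_kp h.inj h.comm hα hs, mul_assoc (kp O κ _), mul_assoc (kp O κ _), hM m,
      Finset.mul_sum]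
    refine Finset.sum_congr rfl fun n _ => ?_
    rw [← mul_assoc, ← map_mul, mul_comm]
  simp only [h3]
  rw [Finset.sum_comm]
  refine Finset.sum_congr rfl fun n _ => ?_
  rw [Matrix.mul_apply, map_sum, Finset.sum_mul]
  rfl

theorem MO.one (hvf : PO N κ j i v) : MO κ v 1 (1 : HO N hi hN) 1 := by
  intro l
  rw [inv_one, ho_one, ← MonoidAlgebra.one_def, one_mul, (hvf.mem l).2.2,
    Finset.sum_eq_single l]
  · rw [Matrix.one_apply_eq, map_one, one_mul]
  · intro m _ hm
    rw [Matrix.one_apply_ne hm, map_zero, zero_mul]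
  · intro h; exact absurd (Finset.mem_univ l) h

theorem det_map_la (α : G →* MulAut C) (d : G)
    (M : Matrix (Fin r) (Fin r) (MonoidAlgebra O C)) :
    (M.map (la O α d)).det = la O α d M.det := by
  have := (RingHom.map_det (la O α d : MonoidAlgebra O C →+* MonoidAlgebra O C) M)
  rw [RingHom.mapMatrix_apply] at this
  exact this.symm

/-- The subgroup of homogeneous units coming from `D`. -/
noncomputable def SO (h : IO N κ i) {α : G →* MulAut C} (hα : KP.ConjData κ α)
    (hvf : PO N κ j i v)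
    {D : Subgroup G} (hjD : ∀ d ∈ D, cg O d j = j) :
    Subgroup (HO N hi hN) where
  carrier := {u | ∃ d ∈ D, dg u = (d : G ⧸ N) ∧ ∃ M, MO κ v d u M ∧ M.det = 1}
  one_mem' := ⟨1, D.one_mem, by rw [map_one]; rfl, 1, MO.one hvf, Matrix.det_one⟩
  mul_mem' := by
    rintro u u' ⟨d, hd, hu, M, hM, hM1⟩ ⟨d', hd', hu', M', hM', hM1'⟩
    refine ⟨d * d', D.mul_mem hd hd', by rw [map_mul, hu, hu']; rfl, _, hM.mul h hα hM', ?_⟩
    rw [Matrix.det_mul, hM1, one_mul, det_map_la, hM1', map_one]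
  inv_mem' := by
    rintro u ⟨d, hd, hu, M, hM, hM1⟩
    have hu' : dg u⁻¹ = ((d⁻¹ : G) : G ⧸ N) := by rw [map_inv, hu]; rfl
    obtain ⟨M', hM'⟩ := MO.exists hvf (hjD _ (D.inv_mem hd)) hu'
    refine ⟨d⁻¹, D.inv_mem hd, hu', M', hM', ?_⟩
    have h1 := hM.mul h hα hM'
    rw [mul_inv_cancel, mul_inv_cancel] at h1
    have h2 := congrArg Matrix.det (h1.unique hvf (MO.one hvf))
    rw [Matrix.det_mul, hM1, one_mul, Matrix.det_one, det_map_la] at h2
    exact (la O α d).injective (by rw [h2, map_one])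

variable {p : ℕ} [Fact p.Prime] [CharP (ResidueField O) p]

theorem SO_inf_le (h : IO N κ i) (hC : IsPGroup p C)
    {α : G →* MulAut C} (hα : KP.ConjData κ α) (hvf : PO N κ j i v)
    {D : Subgroup G} (hjD : ∀ d ∈ D, cg O d j = j)
    (hDN : D ⊓ N ≤ κ.range) (hr : (r : ResidueField O) ≠ 0) :
    SO h hα hvf hjD ⊓ (dg : HO N hi hN →* G ⧸ N).ker ≤ KO h := by
  rintro u ⟨⟨d, hd, hu, M, hM, hM1⟩, hu1⟩
  have hu1' : dg u = 1 := hu1
  have hdN : d ∈ N := by
    rw [← QuotientGroup.eq_one_iff, ← hu, hu1']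
  obtain ⟨y, rfl⟩ := hDN ⟨hd, hdN⟩
  obtain ⟨l, l', hl, hl', hll'⟩ := exists_la h hu1'
  -- the matrix is scalar
  have h1 : MO κ v (κ y) u (Matrix.scalar (Fin r) (MonoidAlgebra.single y 1 * l')) := by
    intro m
    rw [Finset.sum_eq_single m]
    · rw [Matrix.scalar_apply, Matrix.diagonal_apply_eq, map_mul, kp_single, hl', mul_assoc,
        ← mul_assoc (v m), ← kp_comm h.comm l' (hvf.mem m).1, mul_assoc (kp O κ l'),
        (hvf.mem m).2.2, mul_assoc]
    · intro n _ hn
      rw [Matrix.scalar_apply, Matrix.diagonal_apply_ne _ hn, map_zero, zero_mul]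
    · intro h; exact absurd (Finset.mem_univ m) h
  have h2 := hM.unique hvf h1
  rw [h2, Matrix.scalar_apply, Matrix.det_diagonal, Finset.prod_const, Finset.card_univ,
    Fintype.card_fin] at hM1
  obtain ⟨h3, h3'⟩ := root_eq' hC hr hM1
  set c := au O C (MonoidAlgebra.single y 1 * l') with hc
  have hcM : Mu c := ⟨r, hr, h3'⟩
  obtain ⟨c', hc'M, hcc'⟩ := hcM.exists_inv
  refine ⟨hu1', c', y, hc'M, ?_⟩
  have h4 : l = MonoidAlgebra.single y c' := by
    have h5 : MonoidAlgebra.single y 1 * l' * l = algebraMap O _ c * l := by rw [h3]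
    rw [mul_assoc, mul_comm l' l, hll', mul_one] at h5
    have h6 : (MonoidAlgebra.single y c' : MonoidAlgebra O C) =
        c' • MonoidAlgebra.single y 1 := by
      rw [MonoidAlgebra.smul_single', mul_one]
    rw [h6, h5, ← Algebra.smul_def, smul_smul, mul_comm c', hcc', one_smul]
  rw [hl, h4]

theorem SO_surj [IsAlgClosed (ResidueField O)] (h : IO N κ i) (hC : IsPGroup p C)
    (hds : Function.Surjective (dg : HO N hi hN →* G ⧸ N))
    {α : G →* MulAut C} (hα : KP.ConjData κ α) (hvf : PO N κ j i v)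
    {D : Subgroup G} (hjD : ∀ d ∈ D, cg O d j = j) (hr : (r : ResidueField O) ≠ 0)
    {d : G} (hd : d ∈ D) :
    ∃ u : HO N hi hN, u ∈ SO h hα hvf hjD ∧ dg u = (d : G ⧸ N) := by
  obtain ⟨u, hu⟩ := hds (d : G ⧸ N)
  obtain ⟨M, hM⟩ := MO.exists hvf (hjD _ hd) hu
  -- the determinant is a unit
  have hunit : IsUnit M.det := by
    have hu' : dg u⁻¹ = ((d⁻¹ : G) : G ⧸ N) := by rw [map_inv, hu]; rfl
    obtain ⟨M', hM'⟩ := MO.exists hvf (hjD _ (D.inv_mem hd)) hu'
    have h1 := hM.mul h hα hM'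
    rw [mul_inv_cancel, mul_inv_cancel] at h1
    have h2 := congrArg Matrix.det (h1.unique hvf (MO.one hvf))
    rw [Matrix.det_mul, Matrix.det_one] at h2
    exact IsUnit.of_mul_eq_one _ h2
  obtain ⟨l, ⟨lu, rfl⟩, hl'⟩ := exists_root' hC hr hunit
  obtain ⟨w, hw, hw', hw1⟩ := exists_unit_one (hi := hi) (hN := hN) h lu
  refine ⟨w * u, ?_, by rw [map_mul, hw1, one_mul, hu]⟩
  refine ⟨d, hd, by rw [map_mul, hw1, one_mul, hu],
    ((lu⁻¹ : (MonoidAlgebra O C)ˣ) : MonoidAlgebra O C) • M, ?_, ?_⟩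
  · intro m
    have hPm : Sp (N : Set G) (MonoidAlgebra.single d 1 * v m * ho u⁻¹) := by
      rw [hM m]
      exact Sp.sum _ _ fun n _ => (kp_mem h.cmem _).mulN (hvf.mem n).1
    rw [mul_inv_rev, ho_mul, hw', ← mul_assoc, ← mul_assoc, ← kp_comm h.comm _ hPm, mul_assoc,
      mul_assoc (MonoidAlgebra.single d 1 * v m), ho_i, hM m, Finset.mul_sum]
    refine Finset.sum_congr rfl fun n _ => ?_
    rw [← mul_assoc, ← map_mul, Matrix.smul_apply, smul_eq_mul]
  · rw [Matrix.det_smul, Fintype.card_fin, ← hl', ← mul_pow, Units.inv_mul, one_pow]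

end Det

end Vale.Agent.P180.I
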