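import Vale.Agent.P180.Int.Mor

set_option linter.all false
set_option linter.style.haveILetI false
set_option maxHeartbeats 1000000

/-!
The Fong-Reynolds reduction over `O`.
-/

namespace Vale.Agent.P180.I

open IsLocalRing
open Vale.Agent.P180 (cst)

universe u

section Jn

variable {R : Type*} [CommRing R] {G : Type*} [Group G]

/-- The inclusion `R[T] → R[G]`. -/
noncomputable def jn (R : Type*) [CommRing R] {G : Type*} [Group G] (T : Subgroup G) :
    MonoidAlgebra R T →ₐ[R] MonoidAlgebra R G :=
  MonoidAlgebra.mapDomainAlgHom R R T.subtype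

theorem jn_single (T : Subgroup G) (t : T) (c : R) :
    jn R T (MonoidAlgebra.single t c) = MonoidAlgebra.single (t : G) c := by
  simp [jn]

theorem jn_injective (T : Subgroup G) : Function.Injective (jn R T) :=
  MonoidAlgebra.mapDomain_injective T.subtype_injective

theorem jn_mem (T : Subgroup G) (a : MonoidAlgebra R T) : Sp (T : Set G) (jn R T a) := by
  induction a using MonoidAlgebra.induction_linear with
  | zero => rw [map_zero]; exact Sp.zero
  | add a b ha hb => rw [map_add]; exact ha.add hb
  | single t c => rw [jn_single]; exact Sp.single t.2 c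

theorem exists_jn (T : Subgroup G) {a : MonoidAlgebra R G} (ha : Sp (T : Set G) a) :
    ∃ a' : MonoidAlgebra R T, jn R T a' = a := by
  refine Sp.induction (P := fun a => ∃ a' : MonoidAlgebra R T, jn R T a' = a) ha ?_ ?_ ?_
  · exact ⟨0, map_zero _⟩
  · rintro x y ⟨x', rfl⟩ ⟨y', rfl⟩
    exact ⟨x' + y', map_add _ _ _⟩
  · intro x hx c
    exact ⟨c • MonoidAlgebra.single ⟨x, hx⟩ 1, by rw [map_smul, jn_single]⟩

theorem jn_cg (T : Subgroup G) (t : T) (a : MonoidAlgebra R T) :
    jn R T (cg R t a) = cg R (t : G) (jn R T a) := by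
  rw [cg_eq, cg_eq, map_mul, map_mul, jn_single, jn_single]
  rfl

theorem Sp.cg {N : Subgroup G} [N.Normal] {a : MonoidAlgebra R G} (ha : Sp (N : Set G) a) (g : G) :
    Sp (N : Set G) (cg R g a) := by
  intro x hx
  rw [cg_coeff] at hx
  have h1 := ha _ hx
  have h2 := ‹N.Normal›.conj_mem _ h1 g
  have h3 : g * (g⁻¹ * x * g) * g⁻¹ = x := by group
  rw [h3] at h2
  exact h2

theorem jn_corner {T : Subgroup G} {f : MonoidAlgebra R G} {f' : MonoidAlgebra R T}
    (hff : jn R T f' = f) (hf : IsIdempotentElem f) (hf' : IsIdempotentElem f')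
    (h : ∀ a, Sp (T : Set G) (f * a * f)) : Nonempty (hf.Corner ≃ₐ[R] hf'.Corner) := by
  let φ : hf'.Corner →ₐ[R] hf.Corner :=
    { toFun := fun x => cornerOf hf (jn R T x.1)
        (by rw [← hff, ← map_mul, corner_left]) (by rw [← hff, ← map_mul, corner_right])
      map_one' := corner_ext (by
        change jn R T f' = f
        exact hff)
      map_mul' := fun x y => corner_ext (map_mul (jn R T) x.1 y.1)
      map_zero' := corner_ext (map_zero (jn R T))
      map_add' := fun x y => corner_ext (map_add (jn R T) x.1 y.1)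
      commutes' := fun r => corner_ext (by
        change jn R T (r • f') = r • f
        rw [map_smul, hff]) }
  refine ⟨(AlgEquiv.ofBijective φ ⟨?_, ?_⟩).symm⟩
  · intro x y hxy
    apply corner_ext
    apply jn_injective (R := R) T
    exact congrArg Subtype.val hxy
  · intro y
    have h1 : Sp (T : Set G) y.1 := by
      have := h y.1
      rwa [corner_left, corner_right] at this
    obtain ⟨y', hy'⟩ := exists_jn T h1
    refine ⟨cornerOf hf' y' ?_ ?_, corner_ext hy'⟩
    · apply jn_injective (R := R) T
      rw [map_mul, hff, hy', corner_left]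
    · apply jn_injective (R := R) T
      rw [map_mul, hff, hy', corner_right]

end Jn

section FR

variable {O : Type u} [CommRing O] [IsDomain O] [IsDiscreteValuationRing O]
variable [IsAdicComplete (maximalIdeal O) O]
variable {G : Type} [Group G]

theorem rd_jn (T : Subgroup G) (a : MonoidAlgebra O T) :
    rd (jn O T a) = incl (ResidueField O) T (rd a) := by
  induction a using MonoidAlgebra.induction_linear with
  | zero => simp
  | add a b ha hb => rw [map_add, map_add, map_add, map_add, ha, hb]
  | single c r => rw [jn_single, rd_single, rd_single, incl_single]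

theorem cg_eq_cj (g : G) (a : MonoidAlgebra (ResidueField O) G) :
    cg (ResidueField O) g a = cj (ResidueField O) G g a := by rw [cg_eq, cj_eq]

variable [Finite G] {N : Subgroup G} {e : MonoidAlgebra (ResidueField O) G}

/-- Fong-Reynolds over `O`. -/
theorem EO_fr [N.Normal] (he : IsBlockOf N e) {b : MonoidAlgebra (ResidueField O) G}
    (hb : IsBlock b) (hbe : b * e ≠ 0) {b' : MonoidAlgebra (ResidueField O) (stabE e)}
    (hb' : IsBlock b') (hbb' : incl (ResidueField O) (stabE e) b' = b * e) : EO O b b' := by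
  have hb1 := isBlock_iff.mp hb
  have hbc : ∀ x, x * b = b * x := fun x => commute_of_mem (SubAlg_top x) hb1.mem.2
  have hbc' : ∀ x, x * b' = b' * x := fun x =>
    commute_of_mem (SubAlg_top x) (isBlock_iff.mp hb').mem.2
  have hbb : b * b = b := hb.idem
  obtain ⟨B, hB⟩ := exists_lf (O := O) hbc hb.idem
  obtain ⟨B', hB'⟩ := exists_lf (O := O) hbc' hb'.idem
  obtain ⟨F, hF⟩ : ∃ F, F = jn O (stabE e) B' := ⟨_, rfl⟩
  have hFF : F * F = F := by rw [hF, ← map_mul, hB'.idem.eq]
  have hFi : IsIdempotentElem F := hFF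
  have hFr : rd F = b * e := by rw [hF, rd_jn, hB'.rd_eq, hbb']
  have hFT : Sp ((stabE e : Subgroup G) : Set G) F := by rw [hF]; exact jn_mem _ _
  have hBF : B * F = F := by
    apply eq_of_rd_eq
    · rw [mul_assoc, ← mul_assoc F B F, hB.cen F, mul_assoc B F F, hFF, ← mul_assoc, hB.idem.eq]
    · exact hFF
    · rw [mul_assoc, hFF, ← mul_assoc F B F, hB.cen F, mul_assoc, hFF]
    · rw [map_mul, hB.rd_eq, hFr, ← mul_assoc, hbb]
  -- the lift of `e`
  have heT : N ≤ stabE e := le_stabE he
  obtain ⟨E, hEN, hET, hEE, hEr⟩ := exists_idem_IB (O := O) (N := N) (D := (stabE e : Set G))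
    (f := e) he.mem.1 (fun d hd => by rw [cg_eq_cj]; exact hd) he.idem
  have hE0 : ∀ g, g ∉ stabE e → E * cg O g E = 0 := by
    intro g hg
    have h1 : Sp (N : Set G) (cg O g E) := Sp.cg hEN g
    have hcom : cg O g E * E = E * cg O g E := comm_of h1 fun x hx => hET x (heT hx)
    have h2 : cg O g E * cg O g E = cg O g E := by rw [← map_mul, hEE]
    apply eq_of_rd_eq
    · rw [mul_assoc, ← mul_assoc (cg O g E) E, hcom, mul_assoc E, h2, ← mul_assoc, hEE]
    · exact mul_zero _
    · rw [mul_zero, zero_mul]
    · rw [map_mul, rd_cg, hEr, cg_eq_cj, e_mul_cj he hg, map_zero]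
  have hEg : ∀ g, g ∉ stabE e → E * MonoidAlgebra.single g 1 * E = 0 := by
    intro g hg
    rw [mul_assoc, ← cg_mul_single, ← mul_assoc, hE0 g hg, zero_mul]
  have hFE : F * E = E * F := comm_of hFT fun x hx => hET x hx
  have hFE' : F * E = F := by
    symm
    apply eq_of_rd_eq hFF
    · rw [mul_assoc, ← mul_assoc E F E, ← hFE, mul_assoc F E E, hEE, ← mul_assoc, hFF]
    · rw [← mul_assoc, hFF, mul_assoc, ← hFE, ← mul_assoc, hFF]
    · rw [map_mul, hFr, hEr, mul_assoc, he.idem.eq]
  have hFaF : ∀ a, Sp ((stabE e : Subgroup G) : Set G) (F * a * F) := by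
    intro a
    have ha : Sp (Set.univ : Set G) a := fun _ _ => trivial
    refine Sp.induction (P := fun a => Sp ((stabE e : Subgroup G) : Set G) (F * a * F)) ha ?_ ?_ ?_
    · rw [mul_zero, zero_mul]; exact Sp.zero
    · intro x y hx hy
      rw [mul_add, add_mul]
      exact hx.add hy
    · intro x _ c
      rw [mul_smul_comm, smul_mul_assoc]
      apply Sp.smul
      by_cases hx : x ∈ stabE e
      · exact (hFT.mulN (Sp.single hx 1)).mulN hFT
      · have h1 : F * MonoidAlgebra.single x 1 * F = 0 := by
          calc F * MonoidAlgebra.single x 1 * F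
              = (F * E) * MonoidAlgebra.single x 1 * (F * E) := by rw [hFE']
            _ = (F * E) * MonoidAlgebra.single x 1 * (E * F) := by rw [← hFE]
            _ = F * (E * MonoidAlgebra.single x 1 * E) * F := by simp only [mul_assoc]
            _ = 0 := by rw [hEg x hx, mul_zero, zero_mul]
        rw [h1]; exact Sp.zero
  refine ⟨B, B', hB, hB', ?_⟩
  have h1 : IsMoritaEquivalent O hB.idem.Corner hFi.Corner :=
    full_corner hB hFi hBF hFr (be_full he hb1 hbe)
  refine IsMoritaEquivalent.trans O h1 ?_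
  obtain ⟨ψ⟩ := jn_corner hF.symm hFi hB'.idem hFaF
  exact IsMoritaEquivalent.of_algEquiv O ψ

end FR

end Vale.Agent.P180.I
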