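import Vale.Agent.P180.Int.Fin

set_option linter.all false
set_option linter.style.haveILetI false
set_option maxHeartbeats 1000000

/-!
A finite list of groups which serves all fields and all complete discrete valuation rings.
-/

namespace Vale.Agent.P180.I

open IsLocalRing
open Vale.Agent.P180

universe u

/-- The block idempotents of `A[H]`. -/
abbrev BlkSet (A : Type u) [CommRing A] (H : Type) [Group H] : Type u :=
  {c : MonoidAlgebra A H // IsBlockR c}

theorem card_blocks (k : Type u) [Field k] (H : Type) [Group H] [Finite H] :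
    Nonempty (BlkSet k H) ∧ Finite (BlkSet k H) ∧ Nat.card (BlkSet k H) ≤ Nat.card H := by
  haveI : Finite (BlkSet k H) := by
    have h1 := finite_blocks k H
    exact Finite.of_injective (fun c : BlkSet k H =>
      (⟨c.1, isBlockR_iff.mp c.2⟩ : {c : MonoidAlgebra k H // IsBlock c})) (by
        intro c d h
        exact Subtype.ext (congrArg (fun x => x.1) h))
  have h1 : (1 : MonoidAlgebra k H) ≠ 0 := one_ne_zero
  obtain ⟨e, he, -⟩ := exists_isPrimIn (ZAlg k (⊤ : Subgroup H)) ZAlg_comm h1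
  refine ⟨⟨e, isBlockR_iff.mpr (isBlock_iff.mpr he)⟩, inferInstance, ?_⟩
  have hlin : LinearIndependent k (fun c : BlkSet k H => (c : MonoidAlgebra k H)) := by
    rw [linearIndependent_iff']
    intro s g hg i hi
    have h1 := congrArg (fun x => x * (i : MonoidAlgebra k H)) hg
    simp only [Finset.sum_mul, zero_mul, smul_mul_assoc] at h1
    rw [Finset.sum_eq_single i] at h1
    · rw [i.2.idem.eq] at h1
      rcases smul_eq_zero.mp h1 with h2 | h2
      · exact h2
      · exact absurd h2 i.2.ne_zero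
    · intro j _ hji
      have h2 := IsPrimIn.eq_or_mul_eq_zero (k := k) ZAlg_comm
        (isBlock_iff.mp (isBlockR_iff.mp j.2)) (isBlock_iff.mp (isBlockR_iff.mp i.2))
      rcases h2 with h2 | h2
      · exact absurd (Subtype.ext h2) hji
      · rw [h2, smul_zero]
    · intro h
      exact absurd hi h
  haveI := Fintype.ofFinite (BlkSet k H)
  haveI := Fintype.ofFinite H
  have h2 := hlin.fintype_card_le_finrank
  have h3 : Module.finrank k (MonoidAlgebra k H) = Fintype.card H := by
    rw [LinearEquiv.finrank_eq (MonoidAlgebra.coeffLinearEquiv k), Module.finrank_finsupp_self]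
  rw [Nat.card_eq_fintype_card, Nat.card_eq_fintype_card, ← h3]
  exact h2

theorem card_blocksO (O : Type u) [CommRing O] [IsDomain O] [IsDiscreteValuationRing O]
    [IsAdicComplete (maximalIdeal O) O] (H : Type) [Group H] [Finite H] :
    Nonempty (BlkSet O H) ∧ Finite (BlkSet O H) ∧ Nat.card (BlkSet O H) ≤ Nat.card H := by
  obtain ⟨⟨c⟩, h2, h3⟩ := card_blocks (ResidueField O) H
  let f : BlkSet O H → BlkSet (ResidueField O) H :=
    fun B => ⟨rd B.1, isBlockR_iff.mpr (isBlock_rd B.2).1⟩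
  have hf : Function.Injective f := by
    intro B C hBC
    have h2 : rd B.1 = rd C.1 := congrArg Subtype.val hBC
    apply Subtype.ext
    exact (isBlock_rd B.2).2.eq_of C.2.idem h2.symm
  refine ⟨?_, Finite.of_injective f hf, (Nat.card_le_card_of_injective f hf).trans h3⟩
  obtain ⟨C, hC⟩ := exists_lf (O := O) (Subalgebra.mem_center_iff.mp c.2.central) c.2.idem
  exact ⟨C, isBlockR_of_lf (isBlockR_iff.mp c.2) hC⟩

/-- The index set: a group of order at most `F` and a number less than its order. -/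
abbrev Ix (F : ℕ) : Type := Σ i : GrpIdx F, Fin i.1

theorem family (F : ℕ) :
    ∃ (r : ℕ) (H : Fin r → Type) (_ : ∀ i, Group (H i)) (_ : ∀ i, Finite (H i)),
      ∀ (A : Type u) [CommRing A],
        (∀ (H : Type) [Group H] [Finite H], Nonempty (BlkSet A H) ∧ Finite (BlkSet A H) ∧
          Nat.card (BlkSet A H) ≤ Nat.card H) →
        ∃ (c : ∀ i, MonoidAlgebra A (H i)) (hc : ∀ i, IsBlockR (c i)),
          ∀ (G : Type) [Group G] [Finite G], Nat.card G ≤ F → ∀ (b : MonoidAlgebra A G)
            (hb : IsBlockR b), ∃ i, Nonempty (hb.Alg ≃ₐ[A] (hc i).Alg) := by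
  classical
  let eJ := Finite.equivFin (Ix F)
  refine ⟨Nat.card (Ix F), fun j => Fin (eJ.symm j).1.1, fun j => (eJ.symm j).1.inst,
    fun j => inferInstance, ?_⟩
  intro A _ hA
  -- enumeration of the blocks
  have hσ : ∀ i : GrpIdx F, ∃ σ : Fin i.1 → @BlkSet A _ (Fin i.1) i.inst,
      Function.Surjective σ := by
    intro i
    letI := i.inst
    obtain ⟨h1, h2, h3⟩ := hA (Fin i.1)
    haveI := Fintype.ofFinite (BlkSet A (Fin i.1))
    rw [Nat.card_eq_fintype_card, Nat.card_eq_fintype_card, Fintype.card_fin] at h3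
    have h4 : Nonempty (BlkSet A (Fin i.1) ↪ Fin i.1) := by
      rw [Function.Embedding.nonempty_iff_card_le, Fintype.card_fin]
      exact h3
    obtain ⟨g⟩ := h4
    exact ⟨Function.invFun g, Function.invFun_surjective g.injective⟩
  choose σ hσ using hσ
  refine ⟨fun j => (σ (eJ.symm j).1 (eJ.symm j).2).1, fun j => (σ (eJ.symm j).1 (eJ.symm j).2).2, ?_⟩
  intro G _ _ hG b hb
  obtain ⟨i, ⟨f⟩⟩ := exists_grpIdx F G hG
  let _ := i.inst
  obtain ⟨hc, ⟨g⟩⟩ := isBlockR_transport f hb
  obtain ⟨t, ht⟩ := hσ i ⟨_, hc⟩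
  let j : Ix F := ⟨i, t⟩
  refine ⟨eJ j, ?_⟩
  have key : ∀ j' : Ix F, j' = j → (letI := j'.1.inst
      Nonempty (hb.Alg ≃ₐ[A] (IsBlockR.Alg (G := Fin j'.1.1) (σ j'.1 j'.2).2))) := by
    rintro _ rfl
    change Nonempty (hb.Alg ≃ₐ[A] (IsBlockR.Alg (σ i t).2))
    have h5 : ∀ d : BlkSet A (Fin i.1), d = ⟨_, hc⟩ →
        Nonempty (hb.Alg ≃ₐ[A] (IsBlockR.Alg d.2)) := by
      rintro _ rfl
      exact ⟨g⟩
    exact h5 _ ht
  exact key (eJ.symm (eJ j)) (eJ.symm_apply_apply j)

end Vale.Agent.P180.I
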