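import Vale.Agent.P180.Int.Trc

set_option linter.all false
set_option linter.style.haveILetI false
set_option maxHeartbeats 1000000

/-!
Blocks of `O[G]` and blocks of `k[G]`; the final statements.
-/

namespace Vale.Agent.P180.I

open IsLocalRing
open Vale.Agent.P180

universe u

section Transport

variable {R : Type u} [CommRing R]

/-- Corners are preserved by algebra isomorphisms. -/
noncomputable def cornerCg {A B : Type*} [Ring A] [Algebra R A] [Ring B] [Algebra R B]
    (f : A ≃ₐ[R] B) {e : A} (he : IsIdempotentElem e) (hf : IsIdempotentElem (f e)) :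
    he.Corner ≃ₐ[R] hf.Corner where
  toFun x := cornerOf hf (f x.1) (by rw [← map_mul, corner_left]) (by rw [← map_mul, corner_right])
  invFun y := cornerOf he (f.symm y.1)
    (by
      apply f.injective
      rw [map_mul, f.apply_symm_apply, corner_left])
    (by
      apply f.injective
      rw [map_mul, f.apply_symm_apply, corner_right])
  left_inv x := corner_ext (f.symm_apply_apply x.1)
  right_inv y := corner_ext (f.apply_symm_apply y.1)
  map_mul' x y := corner_ext (map_mul f x.1 y.1)
  map_add' x y := corner_ext (map_add f x.1 y.1)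
  commutes' r := corner_ext (map_smul f r e)

/-- Transport of blocks along a group isomorphism. -/
theorem isBlockR_transport {G H : Type} [Group G] [Group H] (f : G ≃* H)
    {b : MonoidAlgebra R G} (hb : IsBlockR b) :
    ∃ hc : IsBlockR (MonoidAlgebra.domCongr R R f b),
      Nonempty (hb.Alg ≃ₐ[R] hc.Alg) := by
  let φ := MonoidAlgebra.domCongr R R f
  have hc : IsBlockR (φ b) := by
    refine ⟨?_, ?_, ?_, ?_⟩
    · rw [Subalgebra.mem_center_iff]
      intro x
      rw [← φ.apply_symm_apply x, ← map_mul, ← map_mul, (Subalgebra.mem_center_iff.mp hb.central)]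
    · change φ b * φ b = φ b
      rw [← map_mul, hb.idem.eq]
    · intro h
      exact hb.ne_zero ((map_eq_zero_iff _ φ.injective).mp h)
    · intro c hc hcc hcb
      have h1 : φ.symm c ∈ Subalgebra.center R (MonoidAlgebra R G) := by
        rw [Subalgebra.mem_center_iff]
        intro x
        apply φ.injective
        rw [map_mul, map_mul, φ.apply_symm_apply, (Subalgebra.mem_center_iff.mp hc)]
      have h2 : IsIdempotentElem (φ.symm c) := by
        change φ.symm c * φ.symm c = φ.symm c
        rw [← map_mul, hcc.eq]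
      have h3 : φ.symm c * b = φ.symm c := by
        apply φ.injective
        rw [map_mul, φ.apply_symm_apply, hcb]
      rcases hb.primitive _ h1 h2 h3 with h | h
      · left
        have := congrArg φ h
        rwa [φ.apply_symm_apply, map_zero] at this
      · right
        have := congrArg φ h
        rwa [φ.apply_symm_apply] at this
  exact ⟨hc, ⟨cornerCg φ hb.idem hc.idem⟩⟩

theorem isBlockR_iff {k : Type u} [Field k] {G : Type} [Group G] {b : MonoidAlgebra k G} :
    IsBlockR b ↔ IsBlock b :=
  ⟨fun h => ⟨h.central, h.idem, h.ne_zero, h.primitive⟩,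
    fun h => ⟨h.central, h.idem, h.ne_zero, h.primitive⟩⟩

theorem isSummandOfInducedR_iff {k : Type u} [Field k] {G : Type} [Group G]
    {b : MonoidAlgebra k G} {D : Subgroup G} :
    IsSummandOfInducedR b D ↔ IsSummandOfInduced b D := Iff.rfl

theorem isDefectGroupR_iff {k : Type u} [Field k] {G : Type} [Group G]
    {b : MonoidAlgebra k G} {D : Subgroup G} : IsDefectGroupR b D ↔ IsDefectGroup b D := Iff.rfl

end Transport

section Corr

variable {O : Type u} [CommRing O] [IsDomain O] [IsDiscreteValuationRing O]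
variable [IsAdicComplete (maximalIdeal O) O]
variable {G : Type} [Group G] [Finite G]

omit [IsDomain O] [IsDiscreteValuationRing O] [IsAdicComplete (maximalIdeal O) O] in
theorem rd_surj [IsLocalRing O] (x : MonoidAlgebra (ResidueField O) G) :
    ∃ X : MonoidAlgebra O G, rd X = x := by
  obtain ⟨X, -, hX⟩ := exists_rd (O := O) (S := Set.univ) (b := x) (fun _ _ => trivial)
  exact ⟨X, hX⟩

/-- a block of `O[G]` reduces to a block of `k[G]` -/
theorem isBlock_rd {B : MonoidAlgebra O G} (hB : IsBlockR B) : IsBlock (rd B) ∧ Lf B (rd B) := by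
  have hBc : ∀ x, x * B = B * x := Subalgebra.mem_center_iff.mp hB.central
  have hBB : B * B = B := hB.idem
  have hlf : Lf B (rd B) := ⟨hBc, hB.idem, rfl⟩
  refine ⟨⟨?_, ?_, ?_, ?_⟩, hlf⟩
  · rw [Subalgebra.mem_center_iff]
    intro x
    obtain ⟨X, rfl⟩ := rd_surj (O := O) x
    rw [← map_mul, ← map_mul, hBc]
  · change rd B * rd B = rd B
    rw [← map_mul, hBB]
  · intro h0
    apply hB.ne_zero
    exact eq_of_rd_eq hBB (mul_zero _) (by rw [mul_zero, zero_mul]) (by rw [h0, map_zero])
  · intro c hc hcc hcb
    obtain ⟨C, hC⟩ := exists_lf (O := O) (Subalgebra.mem_center_iff.mp hc) hcc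
    have h1 : C * B = C := by
      have h2 := hC.mul hlf
      rw [hcb] at h2
      exact h2.unique hC
    rcases hB.primitive C (Subalgebra.mem_center_iff.mpr hC.cen) hC.idem h1 with h | h
    · left; rw [← hC.rd_eq, h, map_zero]
    · right; rw [← hC.rd_eq, h]

/-- the lift of a block -/
theorem isBlockR_of_lf {C : MonoidAlgebra O G} {c : MonoidAlgebra (ResidueField O) G}
    (hc : IsBlock c) (hC : Lf C c) : IsBlockR C := by
  refine ⟨Subalgebra.mem_center_iff.mpr hC.cen, hC.idem, ?_, ?_⟩
  · rintro rfl
    exact hc.ne_zero (by rw [← hC.rd_eq, map_zero])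
  · intro D hD hDD hDC
    have hDc : ∀ x, x * D = D * x := Subalgebra.mem_center_iff.mp hD
    have hDD' : D * D = D := hDD
    rcases hc.primitive (rd D)
      (by
        rw [Subalgebra.mem_center_iff]
        intro x
        obtain ⟨X, rfl⟩ := rd_surj (O := O) x
        rw [← map_mul, ← map_mul, hDc])
      (by
        change rd D * rd D = rd D
        rw [← map_mul, hDD'])
      (by rw [← hC.rd_eq, ← map_mul, hDC]) with h | h
    · left
      exact eq_of_rd_eq hDD' (mul_zero _) (by rw [mul_zero, zero_mul]) (by rw [h, map_zero])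
    · right
      exact (hC.eq_of hDD' h).symm

theorem finite_blocksR (O : Type u) [CommRing O] [IsDomain O] [IsDiscreteValuationRing O]
    [IsAdicComplete (maximalIdeal O) O] (G : Type) [Group G] [Finite G] :
    {B : MonoidAlgebra O G | IsBlockR B}.Finite := by
  have h1 : Finite {c : MonoidAlgebra (ResidueField O) G // IsBlock c} := finite_blocks _ G
  let f : {B : MonoidAlgebra O G | IsBlockR B} →
      {c : MonoidAlgebra (ResidueField O) G // IsBlock c} :=
    fun B => ⟨rd B.1, (isBlock_rd B.2).1⟩
  have hf : Function.Injective f := by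
    intro B C hBC
    have h2 : rd B.1 = rd C.1 := congrArg Subtype.val hBC
    apply Subtype.ext
    exact (isBlock_rd B.2).2.eq_of C.2.idem h2.symm
  exact Finite.of_injective f hf

/-- relative projectivity reduces modulo the maximal ideal -/
theorem exists_trace_rd {B : MonoidAlgebra O G} (hB : IsBlockR B) {D : Subgroup G}
    (h : IsSummandOfInducedR B D) :
    ∃ a ∈ Fix (cj (ResidueField O) G) D, rd B = tr (cj (ResidueField O) G) D ⊤ a := by
  have _ := Fintype.ofFinite (G ⧸ D)
  obtain ⟨A, hA, hBA⟩ := exists_traceR hB (isSm hB h)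
  have hF : rd A ∈ Fix (cj (ResidueField O) G) D := by
    intro d hd
    rw [← cg_eq_cj, ← rd_cg, hA d hd]
  refine ⟨rd A, hF, ?_⟩
  rw [tr_top_eq_sum hF, hBA, map_sum]
  refine Finset.sum_congr rfl fun q _ => ?_
  rw [rd_cg, cg_eq_cj]

end Corr

section Final

open scoped Nat

variable {p n m : ℕ} [Fact p.Prime]

/-- the bound -/
def bd (p n m : ℕ) : ℕ := (n ! * (n * (max m p))! * n) ^ 2

theorem field_form {k : Type u} [Field k] [IsAlgClosed k] [CharP k p]
    {G : Type} [Group G] [Finite G] {b : MonoidAlgebra k G} (hb : IsBlockR b)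
    {D : Subgroup G} (hD : IsSummandOfInducedR b D) (hn : Nat.card D ≤ n)
    {N : Subgroup G} [N.Normal] (hDN : ∀ x ∈ D, x ∈ N → ∀ y ∈ N, x * y = y * x)
    (hcls : BoundedFactors p m
      ((Subgroup.normalClosure (D : Set G)).map (QuotientGroup.mk' N))) :
    ∃ (H : Type) (_ : Group H) (_ : Finite H) (c : MonoidAlgebra k H) (hc : IsBlockR c),
      Nat.card H ≤ bd p n m ∧ IsMoritaEquivalent k hb.Alg hc.Alg := by
  have hb' : IsBlock b := isBlockR_iff.mp hb
  obtain ⟨a, ha, hba⟩ := exists_trace hb' (hb'.isSummand hD)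
  obtain ⟨P, hPD, hP, a', ha', hba'⟩ := exists_sylow_trace (p := p) ha hba
  obtain ⟨H', iH, fH, c', hc', hcard, hM⟩ := T25plus_aux (m := max m p) (n := n)
    (N := N) (M := Subgroup.normalClosure (D : Set G)) (le_max_right m p)
    ((cls_of_compositionFactors _ le_rfl hcls).mono (le_max_left m p)) hP
    (hPD.trans Subgroup.subset_normalClosure) (fun x hx => hDN x (hPD hx)) hb' ha' hba'
    ((Nat.card_le_card_of_injective _ (Subgroup.inclusion_injective hPD)).trans hn)
  exact ⟨H', iH, fH, c', isBlockR_iff.mpr hc', hcard, hM⟩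

variable {O : Type u} [CommRing O] [IsDomain O] [IsDiscreteValuationRing O]
variable [IsAdicComplete (maximalIdeal O) O] [IsAlgClosed (ResidueField O)]
variable [CharP (ResidueField O) p]

theorem integral_form {G : Type} [Group G] [Finite G] {B : MonoidAlgebra O G} (hB : IsBlockR B)
    {D : Subgroup G} (hD : IsSummandOfInducedR B D ∨ IsSummandOfInducedR (rd B) D)
    (hn : Nat.card D ≤ n)
    {N : Subgroup G} [N.Normal] (hDN : ∀ x ∈ D, x ∈ N → ∀ y ∈ N, x * y = y * x)
    (hcls : BoundedFactors p m
      ((Subgroup.normalClosure (D : Set G)).map (QuotientGroup.mk' N))) :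
    ∃ (H : Type) (_ : Group H) (_ : Finite H) (C : MonoidAlgebra O H) (hC : IsBlockR C),
      Nat.card H ≤ bd p n m ∧ IsMoritaEquivalent O hB.Alg hC.Alg := by
  obtain ⟨hb, hlf⟩ := isBlock_rd hB
  obtain ⟨a, ha, hba⟩ : ∃ a ∈ Fix (cj (ResidueField O) G) D,
      rd B = tr (cj (ResidueField O) G) D ⊤ a := by
    rcases hD with h | h
    · exact exists_trace_rd hB h
    · exact exists_trace hb (hb.isSummand h)
  obtain ⟨P, hPD, hP, a', ha', hba'⟩ := exists_sylow_trace (p := p) ha hba
  obtain ⟨H', iH, fH, c, hc, hcard, B', C, hB', hC, hM⟩ := T25plusO (O := O) (m := max m p) (n := n)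
    (N := N) (M := Subgroup.normalClosure (D : Set G)) (le_max_right m p)
    ((cls_of_compositionFactors _ le_rfl hcls).mono (le_max_left m p)) hP
    (hPD.trans Subgroup.subset_normalClosure) (fun x hx => hDN x (hPD hx)) hb ha' hba'
    ((Nat.card_le_card_of_injective _ (Subgroup.inclusion_injective hPD)).trans hn)
  obtain rfl := hB'.unique hlf
  exact ⟨H', iH, fH, C, isBlockR_of_lf hc hC, hcard, hM⟩

end Final

end Vale.Agent.P180.I
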