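import Vale.Agent.P180.Bdl.B2

set_option linter.all false

/-!
Gaschütz' theorem for abelian normal subgroups which are uniquely divisible by the index.
-/

namespace Vale.Agent.P180.I

theorem gas_aux {U : Type*} [Group U] (V S : Subgroup U) [V.Normal] [Finite (U ⧸ (S ⊔ V))]
    (hab : ∀ v ∈ V, ∀ w ∈ V, v * w = w * v)
    (hdiv : ∀ v ∈ V, ∃ w ∈ V, w ^ (S ⊔ V).index = v)
    (huni : ∀ v ∈ V, v ^ (S ⊔ V).index = 1 → v = 1)
    (hSV : S ⊓ V = ⊥) :
    ∃ L : Subgroup U, L ⊓ V = ⊥ ∧ L ⊔ V = ⊤ := by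
  obtain ⟨τ, hτ1, hτ2, hτ3⟩ := exists_tau V S hSV
  letI : CommGroup V := { (inferInstance : Group V) with
    mul_comm := fun a b => Subtype.ext (hab a a.2 b b.2) }
  letI : Fintype (U ⧸ (S ⊔ V)) := Fintype.ofFinite _
  have hmem : ∀ x y, τ x * τ y * (τ (x * y))⁻¹ ∈ V := by
    intro x y
    have h1 := hτ1 x
    have h2 := hτ1 y
    have h3 := hτ1 (x * y)
    have h4 : τ x * τ y * (τ (x * y))⁻¹ =
        (x * y) * ((y⁻¹ * (x⁻¹ * τ x) * y) * (y⁻¹ * τ y) * ((x * y)⁻¹ * τ (x * y))⁻¹) *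
          (x * y)⁻¹ := by group
    rw [h4]
    apply (inferInstance : V.Normal).conj_mem
    apply V.mul_mem (V.mul_mem _ h2) (V.inv_mem h3)
    have := (inferInstance : V.Normal).conj_mem _ h1 y⁻¹
    rwa [inv_inv] at this
  let h : U → U → V := fun x y => ⟨τ x * τ y * (τ (x * y))⁻¹, hmem x y⟩
  have hh : ∀ x y, ((h x y : V) : U) = τ x * τ y * (τ (x * y))⁻¹ := fun x y => rfl
  have hinv : ∀ x y w, w ∈ S ⊔ V → h x (y * w) = h x y := by
    intro x y w hw
    rw [Subgroup.mem_sup_of_normal_right] at hw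
    obtain ⟨s, hs, v, hv, rfl⟩ := hw
    apply Subtype.ext
    rw [hh, hh, ← mul_assoc y, hτ2 _ v hv, hτ3 _ s hs, ← mul_assoc x, ← mul_assoc x, hτ2 _ v hv,
      hτ3 _ s hs]
    group
  have hinv' : ∀ x y y', (QuotientGroup.mk y : U ⧸ (S ⊔ V)) = QuotientGroup.mk y' →
      h x y = h x y' := by
    intro x y y' hy
    rw [QuotientGroup.eq] at hy
    have : y' = y * (y⁻¹ * y') := by group
    rw [this, hinv _ _ _ hy]
  let g : U → V := fun x => ∏ q : U ⧸ (S ⊔ V), h x q.out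
  have hcoc : ∀ x y z, h x y * h (x * y) z = MulAut.conjNormal (τ x) (h y z) * h x (y * z) := by
    intro x y z
    apply Subtype.ext
    simp only [Subgroup.coe_mul, MulAut.conjNormal_apply, hh]
    rw [mul_assoc x y z]
    group
  have hprod : ∀ x y, h x y ^ ((S ⊔ V).index) * g (x * y) =
      MulAut.conjNormal (τ x) (g y) * g x := by
    intro x y
    have h1 : ∏ q : U ⧸ (S ⊔ V), (h x y * h (x * y) q.out) =
        ∏ q : U ⧸ (S ⊔ V), (MulAut.conjNormal (τ x) (h y q.out) * h x (y * q.out)) :=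
      Finset.prod_congr rfl fun q _ => hcoc x y _
    rw [Finset.prod_mul_distrib, Finset.prod_mul_distrib, Finset.prod_const, Finset.card_univ,
      ← Nat.card_eq_fintype_card] at h1
    have h2 : ∏ q : U ⧸ (S ⊔ V), h x (y * q.out) = g x := by
      apply Fintype.prod_bijective (fun q => y • q) (MulAction.bijective y)
      intro q
      apply hinv'
      rw [QuotientGroup.out_eq']
      conv_rhs => rw [← QuotientGroup.out_eq' q]
      rfl
    rw [h2, ← map_prod] at h1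
    exact h1
  -- the root
  have hex : ∀ v : V, ∃ w : V, w ^ (S ⊔ V).index = v := by
    intro v
    obtain ⟨w, hw, hwv⟩ := hdiv v v.2
    exact ⟨⟨w, hw⟩, Subtype.ext hwv⟩
  choose ρ hρ using hex
  have hinj : ∀ a b : V, a ^ (S ⊔ V).index = b ^ (S ⊔ V).index → a = b := by
    intro a b hab'
    have h1 : (a * b⁻¹) ^ (S ⊔ V).index = 1 := by
      rw [mul_pow, inv_pow, hab', mul_inv_cancel]
    have h2 := huni ((a * b⁻¹ : V) : U) (a * b⁻¹).2 (congrArg Subtype.val h1)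
    have h3 : a * b⁻¹ = 1 := Subtype.ext h2
    exact mul_inv_eq_one.mp h3
  have hkey : ∀ x y, h x y = (MulAut.conjNormal (τ x) (ρ (g y))) * ρ (g x) *
      (ρ (g (x * y)))⁻¹ := by
    intro x y
    apply hinj
    rw [mul_pow, mul_pow, inv_pow, hρ, hρ, ← map_pow, hρ, ← hprod x y]
    group
  let τ' : U → U := fun x => ((ρ (g x) : V) : U)⁻¹ * τ x
  have hmul : ∀ x y, τ' (x * y) = τ' x * τ' y := by
    intro x y
    have h1 := congrArg (Subtype.val) (hkey x y)
    rw [hh] at h1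
    simp only [Subgroup.coe_mul, Subgroup.coe_inv, MulAut.conjNormal_apply] at h1
    have h2 : τ x * τ y = (τ x * ((ρ (g y) : V) : U) * (τ x)⁻¹ * ((ρ (g x) : V) : U) *
        ((ρ (g (x * y)) : V) : U)⁻¹) * τ (x * y) := by
      rw [← h1]; group
    have hc : ∀ a b : V, (a : U) * b = b * a := fun a b => hab a a.2 b b.2
    change ((ρ (g (x * y)) : V) : U)⁻¹ * τ (x * y) =
      ((ρ (g x) : V) : U)⁻¹ * τ x * (((ρ (g y) : V) : U)⁻¹ * τ y)
    have h3 : ((ρ (g x) : V) : U)⁻¹ * τ x * (((ρ (g y) : V) : U)⁻¹ * τ y) =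
        ((ρ (g x) : V) : U)⁻¹ * (τ x * ((ρ (g y) : V) : U) * (τ x)⁻¹)⁻¹ * (τ x * τ y) := by
      group
    have h4 : ∃ c : V, (c : U) = τ x * ((ρ (g y) : V) : U) * (τ x)⁻¹ :=
      ⟨MulAut.conjNormal (τ x) (ρ (g y)), rfl⟩
    obtain ⟨c, hcc⟩ := h4
    rw [h3, h2, ← hcc]
    have h5 : ((ρ (g x) : V) : U)⁻¹ * (c : U)⁻¹ * ((c : U) * ((ρ (g x) : V) : U) *
        ((ρ (g (x * y)) : V) : U)⁻¹ * τ (x * y)) = ((ρ (g (x * y)) : V) : U)⁻¹ * τ (x * y) := by
      group
    rw [h5]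
  let F : U →* U := MonoidHom.mk' τ' hmul
  have hFV : ∀ u, u⁻¹ * F u ∈ V := by
    intro u
    have : u⁻¹ * F u = (u⁻¹ * ((ρ (g u) : V) : U)⁻¹ * u) * (u⁻¹ * τ u) := by
      change u⁻¹ * (((ρ (g u) : V) : U)⁻¹ * τ u) = _
      group
    rw [this]
    apply V.mul_mem _ (hτ1 u)
    have h6 := (inferInstance : V.Normal).conj_mem _ (V.inv_mem (ρ (g u) : V).2) u⁻¹
    rwa [inv_inv] at h6
  have hFv : ∀ v ∈ V, F v = 1 := by
    intro v hv
    have h1 : τ v = τ 1 := by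
      have := hτ2 1 v hv
      rwa [one_mul] at this
    have h2 : g v = g 1 := by
      refine Finset.prod_congr rfl fun q _ => ?_
      apply Subtype.ext
      rw [hh, hh, h1]
      have h3 : v * q.out = q.out * ((q.out)⁻¹ * v * q.out) := by group
      have h4 : τ (v * q.out) = τ (1 * q.out) := by
        rw [h3, hτ2, one_mul]
        have h6 := (inferInstance : V.Normal).conj_mem _ hv (q.out)⁻¹
        rwa [inv_inv] at h6
      rw [h4]
    have h5 : F v = F 1 := by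
      change ((ρ (g v) : V) : U)⁻¹ * τ v = ((ρ (g 1) : V) : U)⁻¹ * τ 1
      rw [h1, h2]
    rw [h5, map_one]
  refine ⟨F.range, ?_, ?_⟩
  · rw [eq_bot_iff]
    rintro _ ⟨⟨u, rfl⟩, hu⟩
    have huV : u ∈ V := by
      have h1 := hFV u
      have h2 : u = F u * (u⁻¹ * F u)⁻¹ := by group
      rw [h2]
      exact V.mul_mem hu (V.inv_mem h1)
    exact hFv u huV
  · rw [eq_top_iff]
    intro u _
    have h2 : u = F u * (u⁻¹ * F u)⁻¹ := by group
    rw [h2]
    exact Subgroup.mul_mem_sup ⟨u, rfl⟩ (V.inv_mem (hFV u))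

theorem gas {U : Type*} [Group U] (V S K : Subgroup U) [V.Normal] [K.Normal] (hKV : K ≤ V)
    (hab : ∀ v ∈ V, ∀ w ∈ V, v * w = w * v)
    (hdiv : ∀ v ∈ V, ∃ w ∈ V, w ^ (S ⊔ V).index = v)
    (huni : ∀ v ∈ V, v ^ (S ⊔ V).index ∈ K → v ∈ K)
    (hSV : S ⊓ V ≤ K) (hfin : (S ⊔ V).index ≠ 0) :
    ∃ L : Subgroup U, L ⊓ V = K ∧ L ⊔ V = ⊤ := by
  have hπ : Function.Surjective (QuotientGroup.mk' K) := QuotientGroup.mk'_surjective K
  have hker : (QuotientGroup.mk' K).ker = K := QuotientGroup.ker_mk' K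
  have hV : (V.map (QuotientGroup.mk' K)).Normal :=
    (inferInstance : V.Normal).map _ hπ
  have hidx : ((S.map (QuotientGroup.mk' K)) ⊔ (V.map (QuotientGroup.mk' K))).index =
      (S ⊔ V).index := by
    rw [← Subgroup.map_sup, Subgroup.index_map_eq _ hπ]
    rw [hker]
    exact hKV.trans le_sup_right
  have hfin' : Finite ((U ⧸ K) ⧸ ((S.map (QuotientGroup.mk' K)) ⊔
      (V.map (QuotientGroup.mk' K)))) := by
    have : ((S.map (QuotientGroup.mk' K)) ⊔ (V.map (QuotientGroup.mk' K))).FiniteIndex :=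
      ⟨by rw [hidx]; exact hfin⟩
    infer_instance
  obtain ⟨L, hL1, hL2⟩ := gas_aux (V.map (QuotientGroup.mk' K)) (S.map (QuotientGroup.mk' K))
    (by
      rintro _ ⟨v, hv, rfl⟩ _ ⟨w, hw, rfl⟩
      rw [← map_mul, hab v hv w hw, map_mul]) (by
      rw [hidx]
      rintro _ ⟨v, hv, rfl⟩
      obtain ⟨w, hw, hwv⟩ := hdiv v hv
      exact ⟨_, ⟨w, hw, rfl⟩, by rw [← map_pow, hwv]⟩) (by
      rw [hidx]
      rintro _ ⟨v, hv, rfl⟩ h
      rw [← map_pow, QuotientGroup.mk'_apply, QuotientGroup.eq_one_iff] at h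
      rw [QuotientGroup.mk'_apply, QuotientGroup.eq_one_iff]
      exact huni v hv h) (by
      rw [eq_bot_iff]
      rintro _ ⟨⟨s, hs, rfl⟩, ⟨v, hv, hvs⟩⟩
      rw [Subgroup.mem_bot, QuotientGroup.mk'_apply, QuotientGroup.eq_one_iff]
      apply hSV
      refine ⟨hs, ?_⟩
      have h1 : v⁻¹ * s ∈ K := by
        rw [← QuotientGroup.eq]
        exact hvs
      have h2 : s = v * (v⁻¹ * s) := by group
      change s ∈ V
      rw [h2]
      exact V.mul_mem hv (hKV h1))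
  refine ⟨L.comap (QuotientGroup.mk' K), ?_, ?_⟩
  · apply le_antisymm
    · rintro x ⟨hxL, hxV⟩
      have : QuotientGroup.mk' K x ∈ L ⊓ V.map (QuotientGroup.mk' K) :=
        ⟨hxL, ⟨x, hxV, rfl⟩⟩
      rw [hL1, Subgroup.mem_bot, QuotientGroup.mk'_apply, QuotientGroup.eq_one_iff] at this
      exact this
    · intro x hx
      refine ⟨?_, hKV hx⟩
      change QuotientGroup.mk' K x ∈ L
      have : QuotientGroup.mk' K x = 1 := by
        rw [QuotientGroup.mk'_apply, QuotientGroup.eq_one_iff]; exact hx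
      rw [this]
      exact L.one_mem
  · rw [eq_top_iff]
    intro x _
    have h1 : QuotientGroup.mk' K x ∈ L ⊔ V.map (QuotientGroup.mk' K) := by
      rw [hL2]; trivial
    rw [Subgroup.mem_sup_of_normal_right] at h1
    obtain ⟨l, hl, _, ⟨v, hv, rfl⟩, hlv⟩ := h1
    obtain ⟨l', rfl⟩ := hπ l
    have h2 : (l' * v)⁻¹ * x ∈ K := by
      rw [← QuotientGroup.eq]
      exact hlv
    have h3 : x = l' * (v * ((l' * v)⁻¹ * x)) := by group
    rw [h3]
    exact Subgroup.mul_mem_sup hl (V.mul_mem hv (hKV h2))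

end Vale.Agent.P180.I
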