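import Vale.Agent.P180.Bdl.B2

set_option linter.all false

/-!
Group algebras over a commutative ring: supports, conjugation, the map `k[C] → k[G]`.
(The same facts as in `Bdl.B1`, there over a field.)
-/

namespace Vale.Agent.P180.I

open Vale.Agent.P180 (cst)

section Gr

variable {R : Type*} [CommRing R] {G : Type*} [Group G]

/-- `a` is supported in the set `S`. -/
def Sp (S : Set G) (a : MonoidAlgebra R G) : Prop := ∀ x, a.coeff x ≠ 0 → x ∈ S

theorem Sp.mono {S T : Set G} (h : S ⊆ T) {a : MonoidAlgebra R G} (ha : Sp S a) :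
    Sp T a := fun x hx => h (ha x hx)

theorem Sp.zero {S : Set G} : Sp S (0 : MonoidAlgebra R G) := by
  intro x hx; simp at hx

theorem Sp.add {S : Set G} {a b : MonoidAlgebra R G} (ha : Sp S a) (hb : Sp S b) :
    Sp S (a + b) := by
  intro x hx
  by_contra hxN
  apply hx
  have h1 : a.coeff x = 0 := by
    by_contra h; exact hxN (ha x h)
  have h2 : b.coeff x = 0 := by
    by_contra h; exact hxN (hb x h)
  simp [h1, h2]

theorem Sp.smul {S : Set G} {a : MonoidAlgebra R G} (c : R) (ha : Sp S a) :
    Sp S (c • a) := by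
  intro x hx
  apply ha x
  intro h
  apply hx
  simp [h]

theorem Sp.neg {S : Set G} {a : MonoidAlgebra R G} (ha : Sp S a) : Sp S (-a) := by
  intro x hx
  apply ha x
  intro h
  apply hx
  simp [h]

theorem Sp.sub {S : Set G} {a b : MonoidAlgebra R G} (ha : Sp S a) (hb : Sp S b) :
    Sp S (a - b) := by rw [sub_eq_add_neg]; exact ha.add hb.neg

theorem Sp.sum {ι : Type*} {S : Set G} (s : Finset ι) (f : ι → MonoidAlgebra R G)
    (h : ∀ l ∈ s, Sp S (f l)) : Sp S (∑ l ∈ s, f l) := by
  classical
  induction s using Finset.induction_on with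
  | empty => simpa using Sp.zero
  | insert x t hx ih =>
    rw [Finset.sum_insert hx]
    exact (h _ (Finset.mem_insert_self _ _)).add (ih fun l hl => h _ (Finset.mem_insert_of_mem hl))

theorem Sp.mul {S T U : Set G} {a b : MonoidAlgebra R G} (ha : Sp S a) (hb : Sp T b)
    (h : ∀ s ∈ S, ∀ t ∈ T, s * t ∈ U) : Sp U (a * b) := by
  intro x hx
  by_contra hxU
  apply hx
  rw [MonoidAlgebra.coeff_mul_apply_left]
  apply Finset.sum_eq_zero
  intro y hy
  have hy1 : a.coeff y ≠ 0 := by simpa using hy
  have h2 : b.coeff (y⁻¹ * x) = 0 := by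
    by_contra h3
    apply hxU
    have := h y (ha y hy1) _ (hb _ h3)
    rwa [mul_inv_cancel_left] at this
  simp [h2]

theorem Sp.single {S : Set G} {x : G} (hx : x ∈ S) (c : R) :
    Sp S (MonoidAlgebra.single x c) := by
  classical
  intro y hy
  rw [MonoidAlgebra.coeff_single, Finsupp.single_apply] at hy
  split_ifs at hy with h
  · rwa [← h]
  · exact absurd rfl hy

theorem Sp.one {N : Subgroup G} : Sp (N : Set G) (1 : MonoidAlgebra R G) := by
  rw [MonoidAlgebra.one_def]; exact Sp.single N.one_mem 1

theorem Sp.mulN {N : Subgroup G} {a b : MonoidAlgebra R G} (ha : Sp (N : Set G) a)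
    (hb : Sp (N : Set G) b) : Sp (N : Set G) (a * b) := ha.mul hb fun _ hs _ ht => N.mul_mem hs ht

theorem sum_single_eq (a : MonoidAlgebra R G) :
    a = ∑ x ∈ a.coeff.support, a.coeff x • MonoidAlgebra.single x (1 : R) := by
  apply MonoidAlgebra.coeff_injective
  conv_lhs => rw [← Finsupp.sum_single a.coeff]
  rw [MonoidAlgebra.coeff_sum]
  simp [Finsupp.sum]

theorem Sp.induction {S : Set G} {P : MonoidAlgebra R G → Prop} {a : MonoidAlgebra R G}
    (ha : Sp S a) (h0 : P 0) (hadd : ∀ a b, P a → P b → P (a + b))
    (hs : ∀ x ∈ S, ∀ c : R, P (c • MonoidAlgebra.single x 1)) : P a := by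
  classical
  rw [sum_single_eq a]
  have : ∀ t : Finset G, t ⊆ a.coeff.support →
      P (∑ x ∈ t, a.coeff x • MonoidAlgebra.single x (1 : R)) := by
    intro t
    induction t using Finset.induction_on with
    | empty => intro _; simpa using h0
    | insert x t hx ih =>
      intro ht
      rw [Finset.sum_insert hx]
      refine hadd _ _ (hs x (ha x ?_) _) (ih fun y hy => ht (Finset.mem_insert_of_mem hy))
      have := ht (Finset.mem_insert_self x t)
      simpa using this
  exact this _ (Finset.Subset.refl _)

/-- Conjugation by a group element. -/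
noncomputable def cg (R : Type*) [CommRing R] {G : Type*} [Group G] (g : G) :
    MonoidAlgebra R G →ₐ[R] MonoidAlgebra R G :=
  (MonoidAlgebra.domCongr R R (MulAut.conj g)).toAlgHom

theorem cg_single (g x : G) (r : R) :
    cg R g (MonoidAlgebra.single x r) = MonoidAlgebra.single (g * x * g⁻¹) r := by
  simp [cg]

theorem cg_eq (g : G) (a : MonoidAlgebra R G) :
    cg R g a = MonoidAlgebra.single g 1 * a * MonoidAlgebra.single g⁻¹ 1 := by
  induction a using MonoidAlgebra.induction_linear with
  | zero => simp
  | add a b ha hb => rw [map_add, ha, hb, mul_add, add_mul]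
  | single x r => simp [cg_single, MonoidAlgebra.single_mul_single]

theorem cg_coeff (g x : G) (a : MonoidAlgebra R G) :
    (cg R g a).coeff x = a.coeff (g⁻¹ * x * g) := by
  induction a using MonoidAlgebra.induction_linear with
  | zero => simp
  | add a b ha hb => simp [map_add, ha, hb]
  | single y r =>
    classical
    rw [cg_single, MonoidAlgebra.coeff_single, MonoidAlgebra.coeff_single, Finsupp.single_apply,
      Finsupp.single_apply]
    have : g * y * g⁻¹ = x ↔ y = g⁻¹ * x * g := by
      constructor
      · rintro rfl; group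
      · rintro rfl; group
    by_cases h : y = g⁻¹ * x * g
    · rw [if_pos h, if_pos (this.mpr h)]
    · rw [if_neg h, if_neg fun h' => h (this.mp h')]

theorem cg_mul_single (g : G) (a : MonoidAlgebra R G) :
    cg R g a * MonoidAlgebra.single g 1 = MonoidAlgebra.single g 1 * a := by
  rw [cg_eq, mul_assoc, MonoidAlgebra.single_mul_single, inv_mul_cancel, one_mul,
    ← MonoidAlgebra.one_def, mul_one]

theorem cg_eq_self_iff {x : G} {a : MonoidAlgebra R G} :
    cg R x a = a ↔ MonoidAlgebra.single x 1 * a = a * MonoidAlgebra.single x 1 := by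
  constructor
  · intro h; rw [← cg_mul_single, h]
  · intro h
    rw [cg_eq, h, mul_assoc, MonoidAlgebra.single_mul_single, mul_inv_cancel, one_mul,
      ← MonoidAlgebra.one_def, mul_one]

theorem comm_of {S : Set G} {a b : MonoidAlgebra R G} (ha : Sp S a)
    (hb : ∀ x ∈ S, cg R x b = b) : a * b = b * a := by
  refine Sp.induction (P := fun a => a * b = b * a) ha (by simp) ?_ ?_
  · intro x y hx hy
    rw [add_mul, mul_add, hx, hy]
  · intro x hx c
    rw [smul_mul_assoc, mul_smul_comm, cg_eq_self_iff.mp (hb x hx)]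

theorem mem_center_iff_cg {a : MonoidAlgebra R G} :
    a ∈ Subalgebra.center R (MonoidAlgebra R G) ↔ ∀ g, cg R g a = a := by
  rw [Subalgebra.mem_center_iff]
  constructor
  · intro h g
    exact cg_eq_self_iff.mpr (h _)
  · intro h b
    exact comm_of (S := Set.univ) (fun _ _ => trivial) fun x _ => h x

theorem sp_mul_cst {N : Subgroup G} [N.Normal] {c d : G ⧸ N} {a b : MonoidAlgebra R G}
    (ha : Sp (cst N c) a) (hb : Sp (cst N d) b) : Sp (cst N (c * d)) (a * b) := by
  refine ha.mul hb ?_
  intro s hs t ht
  change ((s * t : G) : G ⧸ N) = c * d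
  rw [QuotientGroup.mk_mul, show ((s : G) : G ⧸ N) = c from hs, show ((t : G) : G ⧸ N) = d from ht]

theorem sp_one_iff {N : Subgroup G} [N.Normal] {a : MonoidAlgebra R G} :
    Sp (cst N 1) a ↔ Sp (N : Set G) a := by
  constructor
  · intro h x hx
    exact (QuotientGroup.eq_one_iff x).mp (h x hx)
  · intro h x hx
    exact (QuotientGroup.eq_one_iff x).mpr (h x hx)

end Gr

section Kp

variable {R : Type*} [CommRing R] {G : Type*} [Group G] {C : Type*} [CommGroup C]

/-- The map of group algebras induced by `κ : C → G`. -/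
noncomputable def kp (R : Type*) [CommRing R] {G : Type*} [Group G]
    {C : Type*} [CommGroup C] (κ : C →* G) : MonoidAlgebra R C →ₐ[R] MonoidAlgebra R G :=
  MonoidAlgebra.mapDomainAlgHom R R κ

theorem kp_single (κ : C →* G) (c : C) (r : R) :
    kp R κ (MonoidAlgebra.single c r) = MonoidAlgebra.single (κ c) r := by
  simp [kp]

theorem kp_mem {κ : C →* G} {N : Subgroup G} (hN : ∀ c, κ c ∈ N) (l : MonoidAlgebra R C) :
    Sp (N : Set G) (kp R κ l) := by
  induction l using MonoidAlgebra.induction_linear with
  | zero => rw [map_zero]; exact Sp.zero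
  | add a b ha hb => rw [map_add]; exact ha.add hb
  | single c r => rw [kp_single]; exact Sp.single (hN c) r

theorem kp_comm {κ : C →* G} {N : Subgroup G} (hc : ∀ c, ∀ n ∈ N, κ c * n = n * κ c)
    (l : MonoidAlgebra R C) {a : MonoidAlgebra R G} (ha : Sp (N : Set G) a) :
    kp R κ l * a = a * kp R κ l := by
  symm
  refine comm_of ha ?_
  intro x hx
  induction l using MonoidAlgebra.induction_linear with
  | zero => rw [map_zero, map_zero]
  | add a b ha hb => rw [map_add, map_add, ha, hb]
  | single c r => rw [kp_single, cg_single, ← hc c x hx, mul_inv_cancel_right]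

/-- the action on `R[C]` -/
noncomputable def la (R : Type*) [CommRing R] {C : Type*} [CommGroup C] {G : Type*} [Group G]
    (α : G →* MulAut C) (g : G) : MonoidAlgebra R C ≃ₐ[R] MonoidAlgebra R C :=
  MonoidAlgebra.domCongr R R (α g)

theorem la_single (α : G →* MulAut C) (g : G) (y : C) (t : R) :
    la R α g (MonoidAlgebra.single y t) = MonoidAlgebra.single (α g y) t := by
  simp [la]

theorem cg_kp {κ : C →* G} {α : G →* MulAut C} (hα : KP.ConjData κ α) (g : G)
    (l : MonoidAlgebra R C) :
    cg R g (kp R κ l) = kp R κ (la R α g l) := by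
  induction l using MonoidAlgebra.induction_linear with
  | zero => simp
  | add a b ha hb => simp only [map_add, ha, hb]
  | single c r => rw [kp_single, cg_single, la_single, kp_single, hα.conj]

theorem mul_kp {N : Subgroup G} [N.Normal] {κ : C →* G} (hinj : Function.Injective κ)
    (hcomm : ∀ c, ∀ n ∈ N, κ c * n = n * κ c) {α : G →* MulAut C} (hα : KP.ConjData κ α) {g : G}
    {c : MonoidAlgebra R G} (hc : Sp (cst N (g : G ⧸ N)) c) (l : MonoidAlgebra R C) :
    c * kp R κ l = kp R κ (la R α g l) * c := by
  refine Sp.induction (P := fun c => c * kp R κ l = kp R κ (la R α g l) * c) hc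
    (by simp) ?_ ?_
  · intro a b ha hb
    rw [add_mul, mul_add, ha, hb]
  · intro x hx r
    have h1 : (x : G ⧸ N) = g := hx
    have h3 : α x = α g := by
      rw [QuotientGroup.eq] at h1
      have h1' : α (x⁻¹ * g) = 1 := by
        ext c
        apply hinj
        rw [hα.conj, ← hcomm c _ h1, mul_inv_cancel_right]
        rfl
      have h2 : g = x * (x⁻¹ * g) := by group
      rw [h2, map_mul, h1', mul_one]
    have h2 : la R α x = la R α g := by
      unfold la
      rw [h3]
    rw [smul_mul_assoc, mul_smul_comm, ← cg_mul_single, cg_kp hα, h2]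

/-- The augmentation. -/
noncomputable def au (R : Type*) [CommRing R] (C : Type*) [CommGroup C] :
    MonoidAlgebra R C →ₐ[R] R := MonoidAlgebra.lift R R C 1

theorem au_single (c : C) (r : R) : au R C (MonoidAlgebra.single c r) = r := by
  simp [au]

end Kp

end Vale.Agent.P180.I
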