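import Vale.Agent.P180.Int.Lift

set_option linter.all false
set_option linter.style.haveILetI false

/-!
Homogeneous units of the corner at a rank one idempotent, over `O`; the determinant trick.
-/

namespace Vale.Agent.P180.I

open IsLocalRing
open Vale.Agent.P180 (cst)
open Vale.Agent.P180.KP (vl vl_mul vl_one i_vl vl_i vl_vl_inv vl_inv_vl vl_ext exists_vl)

section HO

variable {O : Type*} [CommRing O] {G : Type*} [Group G]
variable {N : Subgroup G} [N.Normal] {i : MonoidAlgebra O G}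

/-- The group of homogeneous units. -/
def HO (N : Subgroup G) [N.Normal] (hi : IsIdempotentElem i) (hN : Sp (N : Set G) i) :
    Subgroup (hi.Cornerˣ × (G ⧸ N)) where
  carrier := {u | Sp (cst N u.2) (vl hi u.1) ∧ Sp (cst N (u.2)⁻¹) (vl hi u.1⁻¹)}
  one_mem' := by
    constructor
    · exact sp_one_iff.mpr hN
    · change Sp (cst N (1 : G ⧸ N)⁻¹) (vl hi (1 : hi.Cornerˣ)⁻¹)
      rw [inv_one, inv_one]
      exact sp_one_iff.mpr hN
  mul_mem' := by
    rintro ⟨u, x⟩ ⟨w, y⟩ ⟨h1, h2⟩ ⟨h3, h4⟩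
    refine ⟨sp_mul_cst h1 h3, ?_⟩
    change Sp (cst N (x * y)⁻¹) (vl hi (u * w)⁻¹)
    rw [mul_inv_rev, mul_inv_rev]
    exact sp_mul_cst h4 h2
  inv_mem' := by
    rintro ⟨u, x⟩ ⟨h1, h2⟩
    refine ⟨h2, ?_⟩
    change Sp (cst N (x⁻¹)⁻¹) (vl hi (u⁻¹)⁻¹)
    rw [inv_inv, inv_inv]
    exact h1

variable {hi : IsIdempotentElem i} {hN : Sp (N : Set G) i}

/-- value -/
noncomputable def ho (u : HO N hi hN) : MonoidAlgebra O G := vl hi u.1.1

theorem ho_mul (u w : HO N hi hN) : ho (u * w) = ho u * ho w := rfl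
theorem ho_one : ho (1 : HO N hi hN) = i := rfl
theorem i_ho (u : HO N hi hN) : i * ho u = ho u := i_vl hi _
theorem ho_i (u : HO N hi hN) : ho u * i = ho u := vl_i hi _
theorem ho_ho_inv (u : HO N hi hN) : ho u * ho u⁻¹ = i := vl_vl_inv hi _
theorem ho_inv_ho (u : HO N hi hN) : ho u⁻¹ * ho u = i := vl_inv_vl hi _

/-- degree -/
noncomputable def dg : HO N hi hN →* G ⧸ N := (MonoidHom.snd _ _).comp (HO N hi hN).subtype

theorem sp_ho (u : HO N hi hN) : Sp (cst N (dg u)) (ho u) := u.2.1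

theorem ho_ext {u w : HO N hi hN} (h : ho u = ho w) (h' : dg u = dg w) : u = w :=
  Subtype.ext (Prod.ext (vl_ext hi h) h')

theorem exists_ho {c c' : MonoidAlgebra O G} {x : G ⧸ N} (h1 : i * c = c) (h2 : c * i = c)
    (h3 : i * c' = c') (h4 : c' * i = c') (h5 : c * c' = i) (h6 : c' * c = i)
    (hs : Sp (cst N x) c) (hs' : Sp (cst N x⁻¹) c') :
    ∃ u : HO N hi hN, ho u = c ∧ ho u⁻¹ = c' ∧ dg u = x := by
  obtain ⟨u, hu, hu'⟩ := exists_vl hi h1 h2 h3 h4 h5 h6
  exact ⟨⟨(u, x), by rw [← hu] at hs; exact hs, by rw [← hu'] at hs'; exact hs'⟩, hu, hu', rfl⟩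

end HO

section HO2

variable {O : Type*} [CommRing O] [IsDomain O] [IsDiscreteValuationRing O]
variable [IsAdicComplete (maximalIdeal O) O]
variable {G : Type*} [Group G] [Finite G] {C : Type*} [CommGroup C] [Finite C]
variable {N : Subgroup G} [N.Normal] {κ : C →* G} {i : MonoidAlgebra O G}
variable {hi : IsIdempotentElem i} {hN : Sp (N : Set G) i}

theorem kp_mul_kp (h : IO N κ i) (l l' : MonoidAlgebra O C) :
    kp O κ l * i * (kp O κ l' * i) = kp O κ (l * l') * i := by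
  rw [mul_assoc, ← mul_assoc i, ← kp_comm h.comm l' h.mem, mul_assoc (kp O κ l') i i, h.idem,
    ← mul_assoc, map_mul]

/-- reduction of the corner units -/
theorem dg_surjective (h : IO N κ i)
    {hi' : IsIdempotentElem (rd i)} {hN' : rd i ∈ SubAlg (ResidueField O) N}
    (hs : Function.Surjective (KP.deg : KP.HU N hi' hN' →* G ⧸ N)) :
    Function.Surjective (dg : HO N hi hN →* G ⧸ N) := by
  intro x
  obtain ⟨u, hu⟩ := hs x
  have h1 := KP.supp_hv u
  have h2 := KP.supp_hv u⁻¹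
  rw [hu] at h1
  rw [map_inv, hu] at h2
  obtain ⟨c, hc, hcu⟩ := exists_rd (O := O) (S := cst N x) (b := KP.hv u) h1
  obtain ⟨c', hc', hcu'⟩ := exists_rd (O := O) (S := cst N x⁻¹) (b := KP.hv u⁻¹) h2
  have hsi : Sp (cst N 1) i := sp_one_iff.mpr h.mem
  have hii : i * i = i := h.idem
  -- corner versions
  have hA : ∃ a, Sp (cst N x) a ∧ i * a = a ∧ a * i = a ∧ rd a = KP.hv u := by
    refine ⟨i * c * i, ?_, ?_, ?_, ?_⟩
    · have := sp_mul_cst (sp_mul_cst hsi hc) hsi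
      rwa [one_mul, mul_one] at this
    · rw [← mul_assoc, ← mul_assoc, hii]
    · rw [mul_assoc, hii]
    · rw [map_mul, map_mul, hcu, KP.i_hv, KP.hv_i]
  have hA' : ∃ a, Sp (cst N x⁻¹) a ∧ i * a = a ∧ a * i = a ∧ rd a = KP.hv u⁻¹ := by
    refine ⟨i * c' * i, ?_, ?_, ?_, ?_⟩
    · have := sp_mul_cst (sp_mul_cst hsi hc') hsi
      rwa [one_mul, mul_one] at this
    · rw [← mul_assoc, ← mul_assoc, hii]
    · rw [mul_assoc, hii]
    · rw [map_mul, map_mul, hcu', KP.i_hv, KP.hv_i]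
  obtain ⟨a, ha, ia, ai, ra⟩ := hA
  obtain ⟨b, hb, ib, bi, rb⟩ := hA'
  -- products in degree one are units
  have hdeg1 : ∀ z : MonoidAlgebra O G, Sp (cst N 1) z → i * z = z → z * i = z → rd z = rd i →
      ∃ w, Sp (cst N 1) w ∧ i * w = w ∧ w * i = w ∧ z * w = i ∧ w * z = i := by
    intro z hz iz zi rz
    obtain ⟨l, hl⟩ := h.corner z (sp_one_iff.mp hz)
    rw [iz, zi] at hl
    have hlr : IsUnit l := by
      have h3 : kp O κ (l - 1) * i = z - i := by
        rw [map_sub, sub_mul, map_one, one_mul, ← hl]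
      have h4 : rd (kp O κ (l - 1) * i) = 0 := by rw [h3, map_sub, rz, sub_self]
      have h5 : rd (l - 1) = 0 := by
        -- faithful modulo the maximal ideal
        obtain ⟨w, hw0, hw⟩ := exists_unif O
        have h6 := rd_eq_zero_iff.mp h4
        obtain ⟨b', hb'⟩ := h6.exists_smul hw
        have h7 : i * b' * i = b' := by
          apply smul_cancel hw0
          rw [← smul_mul_assoc, ← mul_smul_comm, ← hb', h3, mul_sub, sub_mul, iz, zi, hii, hii]
        have h8 : Sp (N : Set G) b' := by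
          apply sp_of_smul hw0
          rw [← hb', h3]
          exact (sp_one_iff.mp hz).sub h.mem
        obtain ⟨l', hl'⟩ := h.corner b' h8
        rw [h7] at hl'
        have h9 : kp O κ (l - 1 - w • l') * i = 0 := by
          rw [map_sub, sub_mul, hb', hl', map_smul, smul_mul_assoc, sub_self]
        have h10 := h.faithful _ h9
        rw [sub_eq_zero] at h10
        have hwm : w ∈ maximalIdeal O := by rw [hw]; exact Ideal.mem_span_singleton_self w
        rw [h10, rd_smul, (residue_eq_zero_iff w).mpr hwm, zero_smul]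
      apply isUnit_of_rd
      rw [map_sub, map_one, sub_eq_zero] at h5
      rw [h5]; exact isUnit_one
    obtain ⟨lu, hlu⟩ := hlr
    refine ⟨kp O κ ((lu⁻¹ : _ˣ) : MonoidAlgebra O C) * i, ?_, ?_, ?_, ?_, ?_⟩
    · exact sp_one_iff.mpr ((kp_mem h.cmem _).mulN h.mem)
    · rw [← mul_assoc, ← kp_comm h.comm _ h.mem, mul_assoc, hii]
    · rw [mul_assoc, hii]
    · rw [hl, kp_mul_kp h, ← hlu, Units.mul_inv, map_one, one_mul]
    · rw [hl, kp_mul_kp h, ← hlu, Units.inv_mul, map_one, one_mul]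
  have hab : Sp (cst N 1) (a * b) := by
    have := sp_mul_cst ha hb
    rwa [mul_inv_cancel] at this
  have hba : Sp (cst N 1) (b * a) := by
    have := sp_mul_cst hb ha
    rwa [inv_mul_cancel] at this
  obtain ⟨w, hw1, hw2, hw3, hw4, hw5⟩ := hdeg1 (a * b) hab (by rw [← mul_assoc, ia])
    (by rw [mul_assoc, bi]) (by rw [map_mul, ra, rb, KP.hv_hv_inv])
  obtain ⟨w', hw1', hw2', hw3', hw4', hw5'⟩ := hdeg1 (b * a) hba (by rw [← mul_assoc, ib])
    (by rw [mul_assoc, ai]) (by rw [map_mul, ra, rb, KP.hv_inv_hv])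
  -- inverse of `a`: `b w = w' b`
  have e1 : a * (b * w) = i := by rw [← mul_assoc, hw4]
  have e2 : (w' * b) * a = i := by rw [mul_assoc, hw5']
  have e3 : w' * b = b * w := by
    calc w' * b = (w' * b) * i := by rw [mul_assoc, bi]
      _ = (w' * b) * (a * (b * w)) := by rw [e1]
      _ = ((w' * b) * a) * (b * w) := by simp only [mul_assoc]
      _ = i * (b * w) := by rw [e2]
      _ = b * w := by rw [← mul_assoc, ib]
  obtain ⟨v, -, -, hv⟩ := exists_ho (hi := hi) (hN := hN) (x := x) (c := a) (c' := b * w) ia ai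
    (by rw [← mul_assoc, ib]) (by rw [mul_assoc, hw3]) e1 (by rw [← e3]; exact e2) ha (by
      have := sp_mul_cst hb hw1
      rwa [mul_one] at this)
  exact ⟨v, hv⟩

/-- elements of degree one -/
theorem exists_la (h : IO N κ i) {u : HO N hi hN} (hu : dg u = 1) :
    ∃ l l' : MonoidAlgebra O C, ho u = kp O κ l * i ∧ ho u⁻¹ = kp O κ l' * i ∧ l * l' = 1 := by
  have h1 : Sp (N : Set G) (ho u) := by
    have := sp_ho u
    rw [hu] at this
    exact sp_one_iff.mp this
  have h2 : Sp (N : Set G) (ho u⁻¹) := by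
    have := sp_ho u⁻¹
    rw [map_inv, hu, inv_one] at this
    exact sp_one_iff.mp this
  obtain ⟨l, hl⟩ := h.corner _ h1
  obtain ⟨l', hl'⟩ := h.corner _ h2
  rw [i_ho, ho_i] at hl hl'
  refine ⟨l, l', hl, hl', ?_⟩
  have h3 : kp O κ (l * l' - 1) * i = 0 := by
    rw [map_sub, map_one, sub_mul, one_mul, ← kp_mul_kp h, ← hl, ← hl', ho_ho_inv, sub_self]
  exact sub_eq_zero.mp (h.faithful _ h3)

theorem la_unique (h : IO N κ i) {l l' : MonoidAlgebra O C} (hl : kp O κ l * i = kp O κ l' * i) :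
    l = l' := by
  have h4 : kp O κ (l - l') * i = 0 := by
    rw [map_sub, sub_mul, hl, sub_self]
  exact sub_eq_zero.mp (h.faithful _ h4)

/-- the unit of degree one attached to a unit of `O[C]` -/
theorem exists_unit_one (h : IO N κ i) (lu : (MonoidAlgebra O C)ˣ) :
    ∃ w : HO N hi hN, ho w = kp O κ (lu : MonoidAlgebra O C) * i ∧
      ho w⁻¹ = kp O κ ((lu⁻¹ : (MonoidAlgebra O C)ˣ) : MonoidAlgebra O C) * i ∧ dg w = 1 :=
  exists_ho (hi := hi) (hN := hN) (x := (1 : G ⧸ N))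
    (by rw [← mul_assoc, ← kp_comm h.comm _ h.mem, mul_assoc, h.idem])
    (by rw [mul_assoc, h.idem])
    (by rw [← mul_assoc, ← kp_comm h.comm _ h.mem, mul_assoc, h.idem])
    (by rw [mul_assoc, h.idem])
    (by rw [kp_mul_kp h, Units.mul_inv, map_one, one_mul])
    (by rw [kp_mul_kp h, Units.inv_mul, map_one, one_mul])
    (sp_one_iff.mpr ((kp_mem h.cmem _).mulN h.mem))
    (by rw [inv_one]; exact sp_one_iff.mpr ((kp_mem h.cmem _).mulN h.mem))

/-- the subgroup generated by the roots of unity prime to `p` and `κ(C)` -/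
def KO (h : IO N κ i) : Subgroup (HO N hi hN) where
  carrier := {u | dg u = 1 ∧ ∃ (t : O) (y : C), Mu t ∧
    ho u = kp O κ (MonoidAlgebra.single y t) * i}
  one_mem' := by
    refine ⟨map_one _, 1, 1, Mu.one, ?_⟩
    rw [ho_one, ← MonoidAlgebra.one_def, map_one, one_mul]
  mul_mem' := by
    rintro u w ⟨h1, t, y, ht, h2⟩ ⟨h3, s, z, hs, h4⟩
    refine ⟨by rw [map_mul, h1, h3, mul_one], t * s, y * z, ht.mul hs, ?_⟩
    rw [ho_mul, h2, h4, kp_mul_kp h, MonoidAlgebra.single_mul_single]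
  inv_mem' := by
    rintro u ⟨h1, t, y, ht, h2⟩
    obtain ⟨s, hs, hts⟩ := ht.exists_inv
    refine ⟨by rw [map_inv, h1, inv_one], s, y⁻¹, hs, ?_⟩
    obtain ⟨l, l', hl, hl', hll'⟩ := exists_la h h1
    have h3 : l = MonoidAlgebra.single y t := la_unique h (by rw [← hl, h2])
    have h5 : l' = MonoidAlgebra.single y⁻¹ s := by
      have h6 : MonoidAlgebra.single y⁻¹ s * l = 1 := by
        rw [h3, MonoidAlgebra.single_mul_single, inv_mul_cancel, mul_comm s, hts,
          MonoidAlgebra.one_def]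
      calc l' = MonoidAlgebra.single y⁻¹ s * l * l' := by rw [h6, one_mul]
        _ = _ := by rw [mul_assoc, hll', mul_one]
    rw [hl', h5]

theorem KO_normal (h : IO N κ i) {α : G →* MulAut C}
    (hα : KP.ConjData κ α) : (KO h : Subgroup (HO N hi hN)).Normal := by
  constructor
  rintro w ⟨h1, t, y, ht, h2⟩ u
  refine ⟨by rw [map_mul, map_mul, h1, mul_one, map_inv, mul_inv_cancel], t, ?_⟩
  obtain ⟨g, hg⟩ := QuotientGroup.mk_surjective (dg u)
  refine ⟨α g y, ht, ?_⟩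
  have hs := sp_ho u
  rw [← hg] at hs
  rw [ho_mul, ho_mul, h2, ← mul_assoc, mul_kp h.inj h.comm hα hs, mul_assoc _ (ho u) i, ho_i,
    mul_assoc, ho_ho_inv, la_single]

theorem ker_comm (h : IO N κ i) :
    ∀ v ∈ (dg : HO N hi hN →* G ⧸ N).ker, ∀ w ∈ (dg : HO N hi hN →* G ⧸ N).ker,
      v * w = w * v := by
  intro v hv' w hw'
  obtain ⟨l, -, hl, -, -⟩ := exists_la h hv'
  obtain ⟨m, -, hm, -, -⟩ := exists_la h hw'
  apply ho_ext
  · rw [ho_mul, ho_mul, hl, hm, kp_mul_kp h, kp_mul_kp h, mul_comm]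
  · rw [map_mul, map_mul, show dg v = 1 from hv', show dg w = 1 from hw']

theorem ho_pow (h : IO N κ i) {v : HO N hi hN} {l : MonoidAlgebra O C}
    (hl : ho v = kp O κ l * i) : ∀ m : ℕ, ho (v ^ m) = kp O κ (l ^ m) * i := by
  intro m
  induction m with
  | zero => rw [pow_zero, pow_zero, map_one, one_mul, ho_one]
  | succ m ih => rw [pow_succ, pow_succ, ho_mul, ih, hl, kp_mul_kp h]

variable {p : ℕ} [Fact p.Prime] [CharP (ResidueField O) p]

theorem ker_root [IsAlgClosed (ResidueField O)] (h : IO N κ i) (hC : IsPGroup p C) {q : ℕ}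
    (hq : (q : ResidueField O) ≠ 0) {v : HO N hi hN} (hv : v ∈ (dg : HO N hi hN →* G ⧸ N).ker) :
    ∃ w ∈ (dg : HO N hi hN →* G ⧸ N).ker, w ^ q = v := by
  obtain ⟨l, l', hl, -, hll'⟩ := exists_la h hv
  obtain ⟨m, ⟨mu, rfl⟩, hmq⟩ := exists_root' hC hq (IsUnit.of_mul_eq_one _ hll')
  obtain ⟨w, hw, -, hw1⟩ := exists_unit_one (hi := hi) (hN := hN) h mu
  refine ⟨w, hw1, ho_ext ?_ ?_⟩
  · rw [ho_pow h hw, hmq, hl]
  · rw [map_pow, hw1, one_pow, show dg v = 1 from hv]

theorem ker_root_unique (h : IO N κ i) (hC : IsPGroup p C) {q : ℕ}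
    (hq : (q : ResidueField O) ≠ 0) {v : HO N hi hN} (hv : v ∈ (dg : HO N hi hN →* G ⧸ N).ker)
    (hvq : v ^ q ∈ KO h) : v ∈ KO h := by
  obtain ⟨l, l', hl, -, hll'⟩ := exists_la h hv
  obtain ⟨-, t, y, ht, hty⟩ := hvq
  rw [ho_pow h hl] at hty
  have h1 := la_unique h hty
  obtain ⟨y', t', ht', hlt⟩ := root_single hC hq ht h1
  exact ⟨hv, t', y', ht', by rw [hl, hlt]⟩

end HO2

end Vale.Agent.P180.I
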