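import Vale.Agent.P180.Int.Det
import Vale.Agent.P180.Int.Gas

set_option linter.all false
set_option linter.style.haveILetI false

/-!
Invariant lifts of idempotents; the complement in the group of homogeneous units over `O`.
-/

namespace Vale.Agent.P180.I

open IsLocalRing
open Vale.Agent.P180 (cst)

section IB

variable {O : Type*} [CommRing O] [IsLocalRing O] {G : Type*} [Group G]

/-- The elements of `O[N]` fixed by `D`. -/
def IB (O : Type*) [CommRing O] {G : Type*} [Group G] (N : Subgroup G) (D : Set G) :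
    Subring (MonoidAlgebra O G) where
  carrier := {a | Sp (N : Set G) a ∧ ∀ d ∈ D, cg O d a = a}
  mul_mem' := fun ha hb => ⟨ha.1.mulN hb.1, fun d hd => by rw [map_mul, ha.2 d hd, hb.2 d hd]⟩
  one_mem' := ⟨Sp.one, fun d _ => map_one _⟩
  add_mem' := fun ha hb => ⟨ha.1.add hb.1, fun d hd => by rw [map_add, ha.2 d hd, hb.2 d hd]⟩
  zero_mem' := ⟨Sp.zero, fun d _ => map_zero _⟩
  neg_mem' := fun ha => ⟨ha.1.neg, fun d hd => by rw [map_neg, ha.2 d hd]⟩

/-- canonical lifts -/
theorem exists_rd_inv [Finite G] (b : MonoidAlgebra (ResidueField O) G) :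
    ∃ a : MonoidAlgebra O G, rd a = b ∧ (∀ S : Set G, Sp S b → Sp S a) ∧
      ∀ g, cg (ResidueField O) g b = b → cg O g a = a := by
  classical
  have hs : ∀ c : ResidueField O, ∃ r : O, residue O r = c ∧ (c = 0 → r = 0) := by
    intro c
    by_cases h : c = 0
    · exact ⟨0, by rw [h, map_zero], fun _ => rfl⟩
    · obtain ⟨r, hr⟩ := residue_surjective c
      exact ⟨r, hr, fun h' => absurd h' h⟩
  choose s hs hs0 using hs
  have hc : ∀ x, (MonoidAlgebra.ofCoeff (Finsupp.equivFunOnFinite.symm fun x => s (b.coeff x)) :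
      MonoidAlgebra O G).coeff x = s (b.coeff x) := fun x => rfl
  refine ⟨MonoidAlgebra.ofCoeff (Finsupp.equivFunOnFinite.symm fun x => s (b.coeff x)), ?_, ?_, ?_⟩
  · apply MonoidAlgebra.coeff_injective
    ext x
    rw [rd_coeff, hc, hs]
  · intro S hS x hx
    apply hS x
    intro h
    apply hx
    rw [hc]
    exact hs0 _ h
  · intro g hg
    apply MonoidAlgebra.coeff_injective
    ext x
    rw [cg_coeff, hc, hc, ← cg_coeff, hg]

variable [IsAdicComplete (maximalIdeal O) O]

theorem IB_closed {N : Subgroup G} {D : Set G} (a : MonoidAlgebra O G)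
    (h : ∀ n, ∃ b ∈ IB O N D, Dv n (a - b)) : a ∈ IB O N D := by
  constructor
  · intro x hx
    by_contra hxN
    apply hx
    apply IsHausdorff.haus (I := maximalIdeal O) inferInstance
    intro n
    rw [SModEq.zero, smul_eq_mul, Ideal.mul_top]
    obtain ⟨b, hb, hab⟩ := h n
    have h1 : b.coeff x = 0 := by
      by_contra h2; exact hxN (hb.1 x h2)
    have h2 := hab x
    rwa [MonoidAlgebra.coeff_sub, Finsupp.sub_apply, h1, sub_zero] at h2
  · intro d hd
    rw [← sub_eq_zero]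
    apply Dv.eq_zero
    intro n
    obtain ⟨b, hb, hab⟩ := h n
    have h1 : cg O d a - a = cg O d (a - b) - (a - b) := by
      rw [map_sub, hb.2 d hd]; abel
    rw [h1]
    exact (hab.cg d).sub hab

/-- Invariant lifts of invariant idempotents. -/
theorem exists_idem_IB [Finite G] {N : Subgroup G} {D : Set G}
    {f : MonoidAlgebra (ResidueField O) G} (hN : Sp (N : Set G) f)
    (hD : ∀ d ∈ D, cg (ResidueField O) d f = f) (hf : f * f = f) :
    ∃ F : MonoidAlgebra O G, Sp (N : Set G) F ∧ (∀ d ∈ D, cg O d F = F) ∧ F * F = F ∧ rd F = f := by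
  obtain ⟨f₀, h0, h1, h2⟩ := exists_rd_inv (O := O) f
  obtain ⟨F, hF, hFF, hr⟩ := exists_idem (IB O N D) (IB_closed) hf (f₀ := f₀)
    ⟨h1 _ hN, fun d hd => h2 d (hD d hd)⟩ h0
  exact ⟨F, hF.1, hF.2, hFF, hr⟩

end IB

section LL

variable {O : Type*} [CommRing O] [IsDomain O] [IsDiscreteValuationRing O]
variable [IsAdicComplete (maximalIdeal O) O]
variable {G : Type*} [Group G] [Finite G] {C : Type*} [CommGroup C] [Finite C]
variable {N : Subgroup G} [N.Normal] {κ : C →* G} {i : MonoidAlgebra O G}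
variable {hi : IsIdempotentElem i} {hN : Sp (N : Set G) i}
variable {p : ℕ} [Fact p.Prime] [CharP (ResidueField O) p]

theorem exists_LO [IsAlgClosed (ResidueField O)] {e : MonoidAlgebra (ResidueField O) G}
    (h : KP.CB N κ e) (hC : IsPGroup p C)
    (heG : e ∈ Fix (cj (ResidueField O) G) ⊤) {α : G →* MulAut C} (hα : KP.ConjData κ α)
    {d : ℕ} [NeZero d]
    {ψ : MonoidAlgebra (ResidueField O) G →ₗ[ResidueField O] Matrix (Fin d) (Fin d) (ResidueField O)}
    (hψ : KP.PsiData N κ e ψ) (hci : KP.CIdem N κ e (rd i)) (hψi : ψ (rd i) = Matrix.single 0 0 1)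
    (hI : IO N κ i) (hds : Function.Surjective (dg : HO N hi hN →* G ⧸ N)) :
    ∃ L : Subgroup (HO N hi hN), L ⊓ (dg : HO N hi hN →* G ⧸ N).ker = KO hI ∧
      L ⊔ (dg : HO N hi hN →* G ⧸ N).ker = ⊤ := by
  obtain ⟨P'⟩ : Nonempty (Sylow p (G ⧸ N)) := inferInstance
  set R : Subgroup G := (P' : Subgroup (G ⧸ N)).comap (QuotientGroup.mk' N) with hR
  have hNR : N ≤ R := by
    intro x hx
    rw [hR, Subgroup.mem_comap]
    have : QuotientGroup.mk' N x = 1 := (QuotientGroup.eq_one_iff x).mpr hx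
    rw [this]
    exact Subgroup.one_mem _
  have hRN : ∃ n, N.relIndex R = p ^ n := by
    obtain ⟨n, hn⟩ := IsPGroup.iff_card.mp P'.2
    refine ⟨n, ?_⟩
    have h1 : N = (⊥ : Subgroup (G ⧸ N)).comap (QuotientGroup.mk' N) := by
      rw [MonoidHom.comap_bot, QuotientGroup.ker_mk']
    rw [h1, Subgroup.relIndex_comap, hR,
      Subgroup.map_comap_eq_self_of_surjective (QuotientGroup.mk'_surjective N),
      Subgroup.relIndex_bot_left, hn]
  obtain ⟨D, a, hD⟩ := h.exists_DD hC hα hNR hRN (Fix_mono _ le_top heG)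
  obtain ⟨j, hjN, hjD, hjj, hje, htr⟩ := hD.exists_j h hα (Fix_mono _ le_top heG) hψ
  obtain ⟨r, v, hvf, hr⟩ := KP.exists_PFam h hC hψ hci.mem hci.idem hci.ie hψi hjN hjj htr
  obtain ⟨J, hJN, hJD, hJJ, rfl⟩ := exists_idem_IB (O := O) (N := N) (D := (D : Set G)) (f := j)
    hjN (fun d hd => hjD d hd) hjj
  obtain ⟨V, hV⟩ := exists_PO h.mem h.comm hJN hN hJJ hi.eq hvf
  have hKn : (KO hI : Subgroup (HO N hi hN)).Normal := KO_normal hI hα
  have hidx : (SO hI hα hV hJD ⊔ (dg : HO N hi hN →* G ⧸ N).ker).index ∣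
      (P' : Subgroup (G ⧸ N)).index := by
    rw [← Subgroup.comap_map_eq, Subgroup.index_comap_of_surjective _ hds]
    apply Subgroup.index_dvd_of_le
    intro x hx
    obtain ⟨g, rfl⟩ := QuotientGroup.mk_surjective x
    have hg : g ∈ R := hx
    rw [← hD.sup, Subgroup.mem_sup_of_normal_right] at hg
    obtain ⟨y, hy, m, hm, rfl⟩ := hg
    obtain ⟨u, hu, hu'⟩ := SO_surj (hi := hi) (hN := hN) hI hC hds hα hV hJD hr hy
    refine ⟨u, hu, ?_⟩
    rw [hu', QuotientGroup.eq, inv_mul_cancel_left]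
    exact hm
  have hq : (((SO hI hα hV hJD ⊔ (dg : HO N hi hN →* G ⧸ N).ker).index : ℕ) :
      ResidueField O) ≠ 0 := by
    rw [Ne, CharP.cast_eq_zero_iff (ResidueField O) p]
    intro h0
    exact P'.not_dvd_index (h0.trans hidx)
  refine gas (dg : HO N hi hN →* G ⧸ N).ker (SO hI hα hV hJD) (KO hI)
    (fun u hu => hu.1) (ker_comm hI) (fun v hv => ker_root hI hC hq hv)
    (fun v hv hvq => ker_root_unique hI hC hq hv hvq)
    (SO_inf_le hI hC hα hV hJD hD.inf hr) ?_
  intro h0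
  rw [h0, Nat.cast_zero] at hq
  exact hq rfl

end LL

end Vale.Agent.P180.I
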