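import Vale.Agent.P180.Int.OC

set_option linter.all false

/-!
Lifting the rank one corner and the bases from `k` to a complete discrete valuation ring.
-/

namespace Vale.Agent.P180.I

open IsLocalRing

section DVR

variable {O : Type*} [CommRing O] [IsDomain O] [IsDiscreteValuationRing O]
variable {G : Type*} [Group G]

theorem exists_unif (O : Type*) [CommRing O] [IsDomain O] [IsDiscreteValuationRing O] :
    ∃ w : O, w ≠ 0 ∧ maximalIdeal O = Ideal.span {w} := by
  obtain ⟨w, hw⟩ := IsDiscreteValuationRing.exists_irreducible O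
  exact ⟨w, hw.ne_zero, hw.maximalIdeal_eq⟩

theorem Dv.exists_smul [Finite G] {w : O} (hw : maximalIdeal O = Ideal.span {w})
    {a : MonoidAlgebra O G} (ha : Dv 1 a) : ∃ b : MonoidAlgebra O G, a = w • b := by
  classical
  have hs : ∀ x : G, ∃ r : O, a.coeff x = w * r := by
    intro x
    have := ha x
    rw [pow_one, hw, Ideal.mem_span_singleton] at this
    exact this
  choose r hr using hs
  refine ⟨MonoidAlgebra.ofCoeff (Finsupp.equivFunOnFinite.symm r), ?_⟩
  apply MonoidAlgebra.coeff_injective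
  ext x
  rw [hr]
  simp

theorem smul_cancel {w : O} (hw : w ≠ 0) {a b : MonoidAlgebra O G} (h : w • a = w • b) : a = b := by
  apply MonoidAlgebra.coeff_injective
  ext x
  have h1 := congrArg (fun c => c.coeff x) h
  simp only [MonoidAlgebra.coeff_smul, Finsupp.smul_apply, smul_eq_mul] at h1
  exact mul_left_cancel₀ hw h1

/-- Nakayama for saturated submodules -/
theorem nak [Finite G] {M₁ M₂ : Submodule O (MonoidAlgebra O G)} (h21 : M₂ ≤ M₁)
    (hsat : ∀ (w : O) m, w ≠ 0 → w • m ∈ M₁ → m ∈ M₁)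
    (h : ∀ m ∈ M₁, ∃ m₂ ∈ M₂, rd m = rd m₂) : M₁ ≤ M₂ := by
  obtain ⟨w, hw0, hw⟩ := exists_unif O
  haveI : IsNoetherian O (MonoidAlgebra O G) := inferInstance
  apply Submodule.le_of_le_smul_of_le_jacobson_bot (I := maximalIdeal O)
    (IsNoetherian.noetherian M₁) (IsLocalRing.maximalIdeal_le_jacobson _)
  intro m hm
  obtain ⟨m₂, hm₂, hmm⟩ := h m hm
  have h1 : Dv 1 (m - m₂) := by rw [← rd_eq_zero_iff, map_sub, hmm, sub_self]
  obtain ⟨b, hb⟩ := h1.exists_smul hw
  have hbM : b ∈ M₁ := hsat w b hw0 (by rw [← hb]; exact M₁.sub_mem hm (h21 hm₂))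
  have h2 : m = m₂ + w • b := by rw [← hb]; abel
  have hwm : w ∈ maximalIdeal O := by rw [hw]; exact Ideal.mem_span_singleton_self w
  rw [h2]
  exact Submodule.add_mem_sup hm₂ (Submodule.smul_mem_smul hwm hbM)

/-- injectivity modulo the maximal ideal implies injectivity -/
theorem indep [IsHausdorff (maximalIdeal O) O] {H : Type*} [Group H] [Finite H] {ι : Type*}
    [Finite G] (f : (ι → MonoidAlgebra O H) →ₗ[O] MonoidAlgebra O G)
    (hf : ∀ l, rd (f l) = 0 → ∀ a, rd (l a) = 0) (l : ι → MonoidAlgebra O H) (hl : f l = 0) :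
    l = 0 := by
  obtain ⟨w, hw0, hw⟩ := exists_unif O
  have key : ∀ n, ∀ l, f l = 0 → ∀ a, Dv n (l a) := by
    intro n
    induction n with
    | zero => intro l _ a; exact Dv.all _
    | succ n ih =>
      intro l hl a
      have h1 := hf l (by rw [hl, map_zero])
      have h2 : ∀ a, ∃ b, l a = w • b := fun a => (rd_eq_zero_iff.mp (h1 a)).exists_smul hw
      choose l' hl' using h2
      have h3 : l = w • l' := by funext a; rw [Pi.smul_apply]; exact hl' a
      have h4 : f l' = 0 := by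
        apply smul_cancel hw0
        rw [← map_smul, ← h3, hl, smul_zero]
      have h5 := (ih l' h4 a).smul (m := 1) (r := w)
        (by rw [pow_one, hw]; exact Ideal.mem_span_singleton_self w)
      rw [hl' a, add_comm]
      exact h5
  funext a
  exact Dv.eq_zero fun n => key n l hl a

end DVR

section IO

variable {O : Type*} [CommRing O] [IsDomain O] [IsDiscreteValuationRing O]
variable [IsAdicComplete (maximalIdeal O) O]
variable {G : Type*} [Group G] [Finite G] {C : Type*} [CommGroup C] [Finite C]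
variable {N : Subgroup G} {κ : C →* G}

/-- A rank one idempotent, over `O`. -/
structure IO (N : Subgroup G) (κ : C →* G) (i : MonoidAlgebra O G) : Prop where
  inj : Function.Injective κ
  cmem : ∀ c, κ c ∈ N
  comm : ∀ c, ∀ n ∈ N, κ c * n = n * κ c
  mem : Sp (N : Set G) i
  idem : i * i = i
  corner : ∀ a, Sp (N : Set G) a → ∃ l : MonoidAlgebra O C, i * a * i = kp O κ l * i
  faithful : ∀ l : MonoidAlgebra O C, kp O κ l * i = 0 → l = 0

theorem sat_eq {w : O} (hw : w ≠ 0) {f : MonoidAlgebra O G →ₗ[O] MonoidAlgebra O G}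
    {m : MonoidAlgebra O G} (h : f (w • m) = w • m) : f m = m :=
  smul_cancel hw (by rw [← map_smul, h])

theorem sp_of_smul {w : O} (hw : w ≠ 0) {S : Set G} {m : MonoidAlgebra O G} (h : Sp S (w • m)) :
    Sp S m := by
  intro x hx
  apply h x
  simp only [MonoidAlgebra.coeff_smul, Finsupp.smul_apply, smul_eq_mul]
  exact mul_ne_zero hw hx

/-- the elements of `j O[N] i` -/
def PM (N : Subgroup G) (j i : MonoidAlgebra O G) : Submodule O (MonoidAlgebra O G) where
  carrier := {m | Sp (N : Set G) m ∧ j * m = m ∧ m * i = m}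
  add_mem' := by
    rintro a b ⟨h0, h1, h2⟩ ⟨h3, h4, h5⟩
    exact ⟨h0.add h3, by rw [mul_add, h1, h4], by rw [add_mul, h2, h5]⟩
  zero_mem' := ⟨Sp.zero, by simp, by simp⟩
  smul_mem' := by
    rintro c a ⟨h0, h1, h2⟩
    exact ⟨h0.smul c, by rw [mul_smul_comm, h1], by rw [smul_mul_assoc, h2]⟩

theorem PM_sat {j i : MonoidAlgebra O G} (w : O) (m : MonoidAlgebra O G) (hw : w ≠ 0)
    (h : w • m ∈ PM N j i) : m ∈ PM N j i := by
  obtain ⟨h0, h1, h2⟩ := h
  refine ⟨sp_of_smul hw h0, smul_cancel hw ?_, smul_cancel hw ?_⟩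
  · rw [← mul_smul_comm, h1]
  · rw [← smul_mul_assoc, h2]

/-- A basis of `j O[N] i` over `O[C]`. -/
structure PO (N : Subgroup G) (κ : C →* G) (j i : MonoidAlgebra O G) {r : ℕ}
    (v : Fin r → MonoidAlgebra O G) : Prop where
  mem : ∀ l, v l ∈ PM N j i
  span : ∀ m ∈ PM N j i, ∃ l : Fin r → MonoidAlgebra O C, m = ∑ a, kp O κ (l a) * v a
  ind : ∀ l : Fin r → MonoidAlgebra O C, ∑ a, kp O κ (l a) * v a = 0 → l = 0

/-- Lifting a basis. -/
theorem exists_PO (hcm : ∀ c, κ c ∈ N) (hcc : ∀ c, ∀ n ∈ N, κ c * n = n * κ c)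
    {j i : MonoidAlgebra O G} (hjN : Sp (N : Set G) j) (hiN : Sp (N : Set G) i)
    (hj : j * j = j) (hi : i * i = i) {r : ℕ} {v : Fin r → MonoidAlgebra (ResidueField O) G}
    (hv : KP.PFam N κ (rd j) (rd i) v) :
    ∃ V : Fin r → MonoidAlgebra O G, PO N κ j i V := by
  have hx : ∀ l, ∃ x : MonoidAlgebra O G, Sp (N : Set G) x ∧ rd x = v l := fun l =>
    exists_rd (hv.mem l).1
  choose x hxN hxv using hx
  let V : Fin r → MonoidAlgebra O G := fun l => j * x l * i
  have hVv : ∀ l, rd (V l) = v l := by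
    intro l
    simp only [V]
    rw [map_mul, map_mul, hxv, (hv.mem l).2.1, (hv.mem l).2.2]
  have hVm : ∀ l, V l ∈ PM N j i := fun l =>
    ⟨(hjN.mulN (hxN l)).mulN hiN, by simp only [V]; rw [← mul_assoc, ← mul_assoc, hj],
      by simp only [V]; rw [mul_assoc, hi]⟩
  have hkm : ∀ (l : MonoidAlgebra O C) m, m ∈ PM N j i → kp O κ l * m ∈ PM N j i := by
    intro l m hm
    refine ⟨(kp_mem hcm l).mulN hm.1, ?_, ?_⟩
    · rw [← mul_assoc, ← kp_comm hcc l hjN, mul_assoc, hm.2.1]
    · rw [mul_assoc, hm.2.2]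
  let f : (Fin r → MonoidAlgebra O C) →ₗ[O] MonoidAlgebra O G :=
    { toFun := fun l => ∑ a, kp O κ (l a) * V a
      map_add' := fun l l' => by
        simp only [Pi.add_apply, map_add, add_mul, Finset.sum_add_distrib]
      map_smul' := fun c l => by
        simp only [Pi.smul_apply, map_smul, smul_mul_assoc, Finset.smul_sum, RingHom.id_apply] }
  have hfr : ∀ l, rd (f l) = ∑ a, KP.kap (ResidueField O) κ (rd (l a)) * v a := by
    intro l
    change rd (∑ a, kp O κ (l a) * V a) = _
    rw [map_sum]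
    refine Finset.sum_congr rfl fun a _ => ?_
    rw [map_mul, hVv, rd_kp]
    rfl
  refine ⟨V, hVm, ?_, ?_⟩
  · have h1 : PM N j i ≤ LinearMap.range f := by
      apply nak
      · rintro _ ⟨l, rfl⟩
        exact Submodule.sum_mem _ fun a _ => hkm _ _ (hVm a)
      · exact PM_sat
      · intro m hm
        have hm' : rd m ∈ KP.PP N (rd j) (rd i) := by
          refine ⟨hm.1.rd, ?_, ?_⟩
          · rw [← map_mul, hm.2.1]
          · rw [← map_mul, hm.2.2]
        obtain ⟨l, hl⟩ := hv.span _ hm'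
        have hL : ∀ a, ∃ L : MonoidAlgebra O C, rd L = l a := by
          intro a
          obtain ⟨L, -, hL⟩ := exists_rd (O := O) (S := Set.univ) (b := l a) (fun _ _ => trivial)
          exact ⟨L, hL⟩
        choose L hL using hL
        refine ⟨f L, ⟨L, rfl⟩, ?_⟩
        rw [hfr, hl]
        simp only [hL]
    intro m hm
    obtain ⟨l, hl⟩ := h1 hm
    exact ⟨l, hl.symm⟩
  · intro l hl
    apply indep f ?_ l hl
    intro l' hl' a
    rw [hfr] at hl'
    have := hv.ind _ hl'
    exact congrFun this a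

/-- The lift of a rank one idempotent is a rank one idempotent. -/
theorem IO.of_rd {e : MonoidAlgebra (ResidueField O) G} (h : KP.CB N κ e)
    {i : MonoidAlgebra O G} (hiN : Sp (N : Set G) i) (hi : i * i = i)
    (hci : KP.CIdem N κ e (rd i)) : IO N κ i := by
  have hv : KP.PFam N κ (rd i) (rd i) (fun _ : Fin 1 => rd i) := by
    refine ⟨fun _ => ⟨hci.mem, hci.idem, hci.idem⟩, ?_, ?_⟩
    · intro m hm
      obtain ⟨l, hl⟩ := hci.corner m hm.1
      rw [hm.2.1, hm.2.2] at hl
      exact ⟨fun _ => l, by simpa using hl⟩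
    · intro l hl
      funext a
      have h1 : KP.kap (ResidueField O) κ (l 0) * rd i = 0 := by simpa using hl
      rw [Subsingleton.elim a 0]
      exact hci.faithful _ h1
  obtain ⟨V, hV⟩ := exists_PO h.mem h.comm hiN hiN hi hi hv
  -- `V 0` is a unit multiple of `i`
  have hir : i ∈ PM N i i := ⟨hiN, hi, hi⟩
  obtain ⟨l0, hl0⟩ := hV.span i hir
  rw [Fin.sum_univ_one] at hl0
  have key : ∀ m ∈ PM N i i, ∃ l : MonoidAlgebra O C, m = kp O κ l * i := by
    have h1 : PM N i i ≤ LinearMap.range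
        ((LinearMap.mulRight O i).comp (kp O κ).toLinearMap) := by
      apply nak
      · rintro _ ⟨l, rfl⟩
        refine ⟨(kp_mem h.mem l).mulN hiN, ?_, ?_⟩
        · change i * (kp O κ l * i) = kp O κ l * i
          rw [← mul_assoc, ← kp_comm h.comm l hiN, mul_assoc, hi]
        · change (kp O κ l * i) * i = kp O κ l * i
          rw [mul_assoc, hi]
      · exact PM_sat
      · intro m hm
        obtain ⟨l, hl⟩ := hci.corner (rd m) hm.1.rd
        rw [← map_mul, hm.2.1, ← map_mul, hm.2.2] at hl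
        obtain ⟨L, -, hL⟩ := exists_rd (O := O) (S := Set.univ) (b := l) (fun _ _ => trivial)
        refine ⟨_, ⟨L, rfl⟩, ?_⟩
        change rd m = rd (kp O κ L * i)
        rw [map_mul, rd_kp, hL, hl]
        rfl
    intro m hm
    obtain ⟨l, hl⟩ := h1 hm
    exact ⟨l, hl.symm⟩
  refine ⟨h.inj, h.mem, h.comm, hiN, hi, ?_, ?_⟩
  · intro a ha
    exact key (i * a * i) ⟨(hiN.mulN ha).mulN hiN,
      by rw [← mul_assoc, ← mul_assoc, hi], by rw [mul_assoc, hi]⟩
  · intro l hl
    let f : (Fin 1 → MonoidAlgebra O C) →ₗ[O] MonoidAlgebra O G :=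
      ((LinearMap.mulRight O i).comp (kp O κ).toLinearMap).comp (LinearMap.proj 0)
    have h1 := indep f (by
      intro l' hl' a
      change rd (kp O κ (l' 0) * i) = 0 at hl'
      rw [map_mul, rd_kp] at hl'
      rw [Subsingleton.elim a 0]
      exact hci.faithful _ hl') (fun _ => l) hl
    exact congrFun h1 0

end IO

end Vale.Agent.P180.I
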