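import Vale.Agent.P180.Int.FR

set_option linter.all false
set_option linter.style.haveILetI false
set_option maxHeartbeats 1000000

/-!
The reduction theorems of `Bdl.B2`, with Morita equivalences over `O`.
-/

namespace Vale.Agent.P180.I

open IsLocalRing
open Vale.Agent.P180 (cst)
open Vale.Agent.P180.KP (CB ConjData exists_CC trace_transfer isPCI_corner vl vl_mul vl_one i_vl vl_i vl_vl_inv vl_inv_vl vl_ext exists_vl)
universe u

section Main

open scoped Classical

variable {O : Type u} [CommRing O] [IsDomain O] [IsDiscreteValuationRing O]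
variable [IsAdicComplete (maximalIdeal O) O] [IsAlgClosed (ResidueField O)]
variable {p : ℕ} [Fact p.Prime] [CharP (ResidueField O) p]
variable {G : Type} [Group G] [Finite G] {N Y : Subgroup G} [N.Normal] [Y.Normal]

/-- The reduction of Kulshammer and Puig for blocks with central defect group. -/
theorem mainO (hY : IsPGroup p Y) (hYN : Y ≤ N) (hYc : ∀ y ∈ Y, ∀ n ∈ N, y * n = n * y)
    {e b : MonoidAlgebra (ResidueField O) G} (he : IsBlockOf N e) (heG : ∀ g, cj (ResidueField O) G g e = e) (hb : IsBlock b)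
    (hbe : b * e ≠ 0)
    (heY : ∃ z ∈ SubAlg (ResidueField O) N, z ∈ Fix (cj (ResidueField O) G) Y ∧ e = tr (cj (ResidueField O) G) Y N z)
    {D : Subgroup G} {a : MonoidAlgebra (ResidueField O) G} (ha : a ∈ Fix (cj (ResidueField O) G) D)
    (hba : b = tr (cj (ResidueField O) G) D ⊤ a) (hYD : Y ≤ D) :
    ∃ (H : Type) (_ : Group H) (_ : Finite H) (Z : Subgroup H) (π : H →* G ⧸ N)
      (c : MonoidAlgebra (ResidueField O) H) (hc : IsBlock c), (∀ z ∈ Z, ∀ h, z * h = h * z) ∧
      ¬ p ∣ Nat.card Z ∧ Z ≤ π.ker ∧ Z.index = Nat.card Y * N.index ∧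
      Function.Surjective π ∧ Nat.card π.ker = Nat.card Z * Nat.card Y ∧
      Nat.card H ≤ (Nat.card Y * N.index) ^ 2 ∧ EO O b c ∧
      ∃ (D' : Subgroup H) (a' : MonoidAlgebra (ResidueField O) H), Nat.card D' ≤ Nat.card D ∧
        a' ∈ Fix (cj (ResidueField O) H) D' ∧ c = tr (cj (ResidueField O) H) D' ⊤ a' ∧
        D' ≤ (D.map (QuotientGroup.mk' N)).comap π := by
  obtain ⟨C, _, κ, α, hκ, hκr, hα⟩ := exists_CC hYN hYc
  have hmem : ∀ c, κ c ∈ Y := fun c => by rw [← hκr]; exact ⟨c, rfl⟩
  haveI : Finite C := Finite.of_injective _ hκ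
  have hcardC : Nat.card C = Nat.card Y := by
    rw [← hκr]
    exact Nat.card_congr (κ.ofInjective hκ).toEquiv
  have hCp : IsPGroup p C := by
    have h1 : IsPGroup p κ.range := by rw [hκr]; exact hY
    exact h1.of_equiv (κ.ofInjective hκ).symm
  have hCB : CB N κ e := by
    refine ⟨hκ, fun c => hYN (hmem c), fun c n hn => hYc _ (hmem c) n hn, he, ?_⟩
    obtain ⟨z, hz, -, hz'⟩ := heY
    exact ⟨z, hz, by rw [hκr]; exact hz'⟩
  have heF : e ∈ Fix (cj (ResidueField O) G) ⊤ := fun g _ => heG g
  obtain ⟨I, hI, hi, hIN, hN, hie, hfull, H, _, _, φ, ε, s, π, Z, hε, hs1, hs2, hcardH, hπ, hφ,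
    hZc, hpZ, hZπ, hZi, Φ, hΦ⟩ := exists_twistedO (O := O) hCB hCp heF hα
  -- basic facts about `b`
  have hbB := isBlock_iff.mp hb
  have hbc : ∀ x, x * b = b * x := fun x => commute_of_mem (SubAlg_top x) hbB.mem.2
  have hec : ∀ x, x * e = e * x := fun x => commute_of_mem (SubAlg_top x) heF
  have hbb : b * b = b := hb.idem
  have hbe' : b * e = b := by
    have heZ : e ∈ Subalgebra.center (ResidueField O) (MonoidAlgebra (ResidueField O) G) := mem_center_iff_Fix_top.mpr heF
    rcases hb.primitive (b * e) (Subalgebra.mul_mem _ hb.central heZ)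
      (by
        change b * e * (b * e) = b * e
        rw [mul_assoc, ← mul_assoc e b e, ← hec b, mul_assoc b e e, he.idem.eq, ← mul_assoc, hbb])
      (by rw [mul_assoc, ← hec, ← mul_assoc, hbb]) with h | h
    · exact absurd h hbe
    · exact h
  have hib : IsIdempotentElem ((rd I) * b) := by
    change (rd I) * b * ((rd I) * b) = (rd I) * b
    rw [mul_assoc, ← mul_assoc b (rd I) b, ← hbc (rd I), mul_assoc (rd I) b b, hbb, ← mul_assoc, hi.eq]
  have hi1 : (rd I) * ((rd I) * b) = (rd I) * b := by rw [← mul_assoc, hi.eq]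
  have hi2 : ((rd I) * b) * (rd I) = (rd I) * b := by rw [mul_assoc, ← hbc, ← mul_assoc, hi.eq]
  set β : hi.Corner := subIdem hi hi1 hi2 with hβ
  have hβv : β.1 = (rd I) * b := rfl
  have hPCI : IsPCI (ResidueField O) β := by
    refine isPCI_corner hi hie hec he.idem.eq hfull hbc hbb hbe' hb.ne_zero ?_ β hβv
    intro c hc hcc hcb
    exact hb.primitive c (Subalgebra.mem_center_iff.mpr hc) hcc hcb
  have hcs := isBlock_s hε hs1 hs2 hPCI
  -- cardinalities
  have hker : Nat.card π.ker = Nat.card Z * Nat.card Y := by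
    have h1 := π.ker.card_mul_index
    have h2 := Z.card_mul_index
    rw [Subgroup.index_ker, MonoidHom.range_eq_top.mpr hπ] at h1
    have h3 : Nat.card (⊤ : Subgroup (G ⧸ N)) = N.index := by
      rw [Subgroup.index]; exact Nat.card_congr Subgroup.topEquiv.toEquiv
    rw [h3] at h1
    rw [hZi, hcardC] at h2
    have h4 : N.index ≠ 0 := Subgroup.index_ne_zero_of_finite
    apply Nat.eq_of_mul_eq_mul_right (Nat.pos_of_ne_zero h4)
    rw [h1, ← h2, mul_assoc]
  refine ⟨H, inferInstance, inferInstance, Z, π, s β, hcs, hZc, hpZ, hZπ, by rw [hZi, hcardC], hπ,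
    hker, by rw [← hcardC]; exact hcardH, ?_, ?_⟩
  · -- Morita equivalence
    refine EO_twisted hε hs1 hs2 hΦ hbc hbb hβv ?_
    obtain ⟨n, x, y, hxy⟩ := hfull
    refine ⟨n, x, y, ?_⟩
    conv_rhs => rw [← hbe', hxy, Finset.mul_sum]
    refine Finset.sum_congr rfl fun l _ => ?_
    rw [hbc (rd I), ← mul_assoc, hbc (x l)]
    simp only [mul_assoc]
  · -- the trace condition
    obtain ⟨x, hx⟩ : ∃ x, x = tr (cj (ResidueField O) G) D (D ⊔ N) a := ⟨_, rfl⟩
    have hxF : x ∈ Fix (cj (ResidueField O) G) (D ⊔ N) := by rw [hx]; exact tr_mem_Fix ha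
    have hbx : b = tr (cj (ResidueField O) G) (D ⊔ N) ⊤ x := by
      rw [hx, tr_tr ha le_sup_left le_top]; exact hba
    obtain ⟨hF, hT⟩ := trace_transfer (hi := hi) hN hε hs1 hs2 hπ hφ hxF (β := β)
      (by rw [hβv, ← hbx])
    set H₁ : Subgroup H := (D.map (QuotientGroup.mk' N)).comap π with hH₁
    have hF' : s (mkCorner hi x) ∈ Fix (cj (ResidueField O) H) H₁ := hF
    obtain ⟨Q⟩ : Nonempty (Sylow p H₁) := inferInstance
    have hidx : ((Q : Subgroup H₁).map H₁.subtype).relIndex H₁ = (Q : Subgroup H₁).index := by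
      rw [Subgroup.relIndex, ← Subgroup.comap_subtype,
        Subgroup.comap_map_eq_self_of_injective H₁.subtype_injective]
    have hne : ((((Q : Subgroup H₁).map H₁.subtype).relIndex H₁ : ℕ) : (ResidueField O)) ≠ 0 := by
      rw [hidx, Ne, CharP.cast_eq_zero_iff (ResidueField O) p]
      exact Q.not_dvd_index
    have hle : (Q : Subgroup H₁).map H₁.subtype ≤ H₁ := by
      rintro _ ⟨x, -, rfl⟩
      exact x.2
    refine ⟨(Q : Subgroup H₁).map H₁.subtype,
      ((((Q : Subgroup H₁).map H₁.subtype).relIndex H₁ : ℕ) : (ResidueField O))⁻¹ • s (mkCorner hi x),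
      ?_, ?_, ?_, hle⟩
    · -- cardinality
      have h1 : Nat.card ((Q : Subgroup H₁).map H₁.subtype) = Nat.card (Q : Subgroup H₁) :=
        Nat.card_congr ((Q : Subgroup H₁).equivMapOfInjective _
          H₁.subtype_injective).symm.toEquiv
      obtain ⟨n, hn⟩ := IsPGroup.iff_card.mp Q.2
      have h2 : Nat.card (Q : Subgroup H₁) ∣ Nat.card H₁ := (Q : Subgroup H₁).card_subgroup_dvd_card
      -- order of `H₁`
      have h3 : Nat.card H₁ = Nat.card Z * (Nat.card Y * Nat.card (D.map (QuotientGroup.mk' N))) := by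
        have h4 := H₁.card_mul_index
        have h5 := (D.map (QuotientGroup.mk' N)).card_mul_index
        have h6 := π.ker.card_mul_index
        rw [Subgroup.index_ker, MonoidHom.range_eq_top.mpr hπ] at h6
        have h7 : Nat.card (⊤ : Subgroup (G ⧸ N)) = Nat.card (G ⧸ N) :=
          Nat.card_congr Subgroup.topEquiv.toEquiv
        rw [hH₁, Subgroup.index_comap_of_surjective _ hπ] at h4
        have h8 : (D.map (QuotientGroup.mk' N)).index ≠ 0 := Subgroup.index_ne_zero_of_finite
        apply Nat.eq_of_mul_eq_mul_right (Nat.pos_of_ne_zero h8)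
        rw [hH₁, h4, ← h6, h7, hker, ← h5]
        ring
      have h9 : Nat.card (D.map (QuotientGroup.mk' N)) * Nat.card Y ≤ Nat.card D := by
        have h10 : Nat.card (D.map (QuotientGroup.mk' N)) = N.relIndex D := by
          rw [← Subgroup.relIndex_ker, QuotientGroup.ker_mk']
        have h11 : N.relIndex D ∣ Y.relIndex D := Subgroup.relIndex_dvd_of_le_left D hYN
        have h12 : Nat.card Y * Y.relIndex D = Nat.card D := by
          have h13 := Subgroup.relIndex_mul_relIndex (⊥ : Subgroup G) Y D bot_le hYD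
          rwa [Subgroup.relIndex_bot_left, Subgroup.relIndex_bot_left] at h13
        rw [h10, ← h12, mul_comm]
        apply Nat.mul_le_mul_left
        apply Nat.le_of_dvd _ h11
        apply Nat.pos_of_ne_zero
        intro h0
        rw [h0, mul_zero] at h12
        exact Nat.card_pos.ne' h12.symm
      rw [h1]
      refine le_trans ?_ h9
      rw [mul_comm]
      apply Nat.le_of_dvd
      · exact Nat.mul_pos Nat.card_pos Nat.card_pos
      · rw [h3] at h2
        apply Nat.Coprime.dvd_of_dvd_mul_left _ h2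
        rw [hn]
        apply Nat.Coprime.pow_left
        rw [(Fact.out : p.Prime).coprime_iff_not_dvd]
        exact hpZ
    · exact Subalgebra.smul_mem _ (Fix_mono _ hle hF') _
    · rw [hT]
      have h1 : ((((Q : Subgroup H₁).map H₁.subtype).relIndex H₁ : ℕ) : (ResidueField O))⁻¹ •
          s (mkCorner hi x) ∈ Fix (cj (ResidueField O) H) ((Q : Subgroup H₁).map H₁.subtype) :=
        Subalgebra.smul_mem _ (Fix_mono _ hle hF') _
      rw [← tr_tr h1 hle le_top, tr_smul, tr_of_mem_Fix hF', smul_smul, inv_mul_cancel₀ hne,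
        one_smul]


end Main

section T25

open scoped Nat

variable {O : Type u} [CommRing O] [IsDomain O] [IsDiscreteValuationRing O]
variable [IsAdicComplete (maximalIdeal O) O] [IsAlgClosed (ResidueField O)]
variable {p m n : ℕ} [Fact p.Prime] [CharP (ResidueField O) p]

theorem T25O_aux (hpm : p ≤ m) (i : ℕ) :
    ∀ (G : Type) [Group G] [Finite G] (Z D M : Subgroup G) [M.Normal] (a b : MonoidAlgebra (ResidueField O) G),
      Cls p m M → D ≤ M → (∀ z ∈ Z, ∀ g, z * g = g * z) → ¬ p ∣ Nat.card Z →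
      ∀ hb : IsBlock b,
      a ∈ Fix (cj (ResidueField O) G) D → b = tr (cj (ResidueField O) G) D ⊤ a → Nat.card D ≤ n → Z.index ≤ i →
      ∃ (H : Type) (_ : Group H) (_ : Finite H) (c : MonoidAlgebra (ResidueField O) H) (hc : IsBlock c),
        Nat.card H ≤ (n ! * (n * m)! * n) ^ 2 ∧ EO O b c := by
  induction i with
  | zero =>
    intro G _ _ Z D M _ a b _ _ _ _ _ _ _ _ hi
    exact absurd (Nat.le_zero.mp hi) Z.index_ne_zero_of_finite
  | succ i ih =>
    intro G _ _ Z D M hMn a b hM hDM hZ hpZ hb ha hba hDn hi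
    by_cases hST : ∀ N : Subgroup G, N.Normal → ∀ e : MonoidAlgebra (ResidueField O) G, IsBlockOf N e →
      b * e ≠ 0 → ∀ g, cj (ResidueField O) G g e = e
    swap
    · push Not at hST
      obtain ⟨N, hN, e, he, hbe, g, hg⟩ := hST
      obtain ⟨b', hb', hbb', -, x, a', ha', hb'a'⟩ := fong_reynolds he hb hbe ha hba
      have hMo : EO O b b' := EO_fr he hb hbe hb' hbb'
      have hZT : Z ≤ stabE e := by
        intro z hz
        rw [mem_stabE]
        exact cj_eq_self_of_commute he.mem.1 fun a _ => hZ z hz a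
      have hT : (stabE e).index ≠ 1 := by
        rw [Ne, Subgroup.index_eq_one]
        intro h
        apply hg
        rw [← mem_stabE, h]
        exact Subgroup.mem_top g
      have hT0 : (stabE e).index ≠ 0 := Subgroup.index_ne_zero_of_finite
      have hidx : (Z.subgroupOf (stabE e)).index ≤ i := by
        have h1 : Z.relIndex (stabE e) * (stabE e).index = Z.index :=
          Subgroup.relIndex_mul_index hZT
        have h2 : (Z.subgroupOf (stabE e)).index ≠ 0 := Subgroup.index_ne_zero_of_finite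
        have h3 : Z.relIndex (stabE e) * 2 ≤ Z.relIndex (stabE e) * (stabE e).index :=
          Nat.mul_le_mul_left _ (by omega)
        change Z.relIndex (stabE e) ≠ 0 at h2
        change Z.relIndex (stabE e) ≤ i
        omega
      have hMT : (M.subgroupOf (stabE e)).Normal := inferInstance
      have hMcls : Cls p m (M.subgroupOf (stabE e)) := by
        let f : (M.subgroupOf (stabE e)) →* M :=
          { toFun := fun x => ⟨((x : stabE e) : G), x.2⟩
            map_one' := rfl
            map_mul' := fun _ _ => rfl }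
        refine hM.of_injective f ?_
        intro x y hxy
        apply Subtype.ext
        apply Subtype.ext
        exact congrArg (fun w : M => (w : G)) hxy
      have hDM' : (conjS x D).subgroupOf (stabE e) ≤ M.subgroupOf (stabE e) := by
        intro y hy
        rw [Subgroup.mem_subgroupOf, mem_conjS] at hy
        rw [Subgroup.mem_subgroupOf]
        have h5 := hMn.conj_mem _ (hDM hy) x
        simpa [mul_assoc] using h5
      obtain ⟨H, iH, fH, c, hc, hH, hM'⟩ := ih (stabE e) (Z.subgroupOf (stabE e)) _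
        (M.subgroupOf (stabE e)) a' b' hMcls hDM'
        (fun z hz g => Subtype.ext (hZ _ hz g))
        (by rwa [Nat.card_congr (Subgroup.subgroupOfEquivOfLe hZT).toEquiv]) hb' ha' hb'a'
        ((card_subgroupOf_conjS_le _ x D).trans hDn) hidx
      exact ⟨H, iH, fH, c, hc, hH, hMo.trans hM'⟩
    · by_cases hNR : ∀ N Y : Subgroup G, N.Normal → Y.Normal → Z ≤ N → Y ≤ N → IsPGroup p Y →
        (∀ y ∈ Y, ∀ x ∈ N, y * x = x * y) → ∀ e : MonoidAlgebra (ResidueField O) G, IsBlockOf N e →
        b * e ≠ 0 → (∃ z ∈ SubAlg (ResidueField O) N, z ∈ Fix (cj (ResidueField O) G) Y ∧ e = tr (cj (ResidueField O) G) Y N z) →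
        Nat.card N = Nat.card Z * Nat.card Y
      swap
      · push Not at hNR
        obtain ⟨N, Y, hN, hYn, hZN, hYN, hY, hYc, e, he, hbe, hez, hcard⟩ := hNR
        have hYD : Y ≤ D := op_le p hY hb.idem hb.ne_zero ha hba
        obtain ⟨H, iH, fH, Z', π, c, hc, hZ', hpZ', hZπ, hidx', hπ, hker, _, hMo, D', a', hD',
          ha', hca', hD'M⟩ := mainO hY hYN hYc he (hST N hN e he hbe) hb hbe hez ha hba hYD
        have hidx : Z'.index ≤ i := by
          have h1 : Nat.card Z * Nat.card Y ≤ Nat.card N := by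
            rw [← card_sup_eq hpZ hY]
            exact Nat.card_le_card_of_injective _
              (Subgroup.inclusion_injective (sup_le hZN hYN))
          have h2 : Nat.card Z * Nat.card Y < Nat.card N :=
            lt_of_le_of_ne h1 (Ne.symm hcard)
          have h3 := Subgroup.card_mul_index N
          have h4 := Subgroup.card_mul_index Z
          have h5 : 0 < N.index := Nat.pos_of_ne_zero Subgroup.index_ne_zero_of_finite
          have h6 : Nat.card Z * (Nat.card Y * N.index) < Nat.card Z * Z.index := by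
            rw [h4, ← h3, ← mul_assoc]
            exact Nat.mul_lt_mul_of_pos_right h2 h5
          have h7 := Nat.lt_of_mul_lt_mul_left h6
          omega
        have hMn' : (M.map (QuotientGroup.mk' N)).Normal :=
          Subgroup.Normal.map hMn _ (QuotientGroup.mk'_surjective N)
        have hMq : Cls p m (M.map (QuotientGroup.mk' N)) :=
          hM.of_surjective ((QuotientGroup.mk' N).subgroupMap M)
            ((QuotientGroup.mk' N).subgroupMap_surjective M)
        have hMcls : Cls p m ((M.map (QuotientGroup.mk' N)).comap π) :=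
          cls_comap hpm hY hMq hZ' hZπ hker
        have hMn'' : ((M.map (QuotientGroup.mk' N)).comap π).Normal := inferInstance
        obtain ⟨H', iH', fH', c', hc', hH', hM'⟩ := ih H Z' D'
          ((M.map (QuotientGroup.mk' N)).comap π) a' c
          hMcls (hD'M.trans (Subgroup.comap_mono (Subgroup.map_mono hDM))) hZ' hpZ' hc ha' hca'
          (hD'.trans hDn) hidx
        exact ⟨H', iH', fH', c', hc', hH', hMo.trans hM'⟩
      · have hbound := caseC_bound' hM hZ hpZ hDM hb ha hba hDn hST hNR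
        have hZn : Z.Normal := by
          constructor
          intro z hz g
          rw [← hZ z hz g, mul_inv_cancel_right]
          exact hz
        obtain ⟨e, he, hbe⟩ := exists_isPrimIn (ZAlg (ResidueField O) Z) ZAlg_comm hb.ne_zero
        have hrel : ¬ p ∣ (⊥ : Subgroup G).relIndex Z := by
          rwa [Subgroup.relIndex_bot_left]
        obtain ⟨H, iH, fH, _, _, c, hc, _, _, _, _, _, _, hH, hMo, _⟩ := mainO (O := O)
          (N := Z) (Y := ⊥) (D := D)
          IsPGroup.of_bot bot_le (by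
            intro y hy x _
            rw [Subgroup.mem_bot] at hy
            rw [hy, one_mul, mul_one]) he (hST Z hZn e he hbe) hb hbe
          ⟨_, Subalgebra.smul_mem _ he.mem.1 _,
            Subalgebra.smul_mem _ (Fix_mono _ bot_le he.mem.2) _,
            eq_tr_of_not_dvd p hrel he.mem.2⟩ ha hba bot_le
        refine ⟨H, iH, fH, c, hc, hH.trans ?_, hMo⟩
        rw [Subgroup.card_bot, one_mul]
        exact Nat.pow_le_pow_left hbound 2

/-- Donovan's conjecture for blocks whose defect group lies in a normal subgroup of the class. -/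
theorem T25O (hpm : p ≤ m) {G : Type} [Group G] [Finite G] {M : Subgroup G} [M.Normal]
    (hM : Cls p m M) {D : Subgroup G} (hDM : D ≤ M) {a b : MonoidAlgebra (ResidueField O) G} (hb : IsBlock b)
    (ha : a ∈ Fix (cj (ResidueField O) G) D) (hba : b = tr (cj (ResidueField O) G) D ⊤ a) (hDn : Nat.card D ≤ n) :
    ∃ (H : Type) (_ : Group H) (_ : Finite H) (c : MonoidAlgebra (ResidueField O) H) (hc : IsBlock c),
      Nat.card H ≤ (n ! * (n * m)! * n) ^ 2 ∧ EO O b c :=
  T25O_aux hpm _ G ⊥ D M a b hM hDM (by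
    intro z hz g
    rw [Subgroup.mem_bot] at hz
    rw [hz, one_mul, mul_one]) (by
    rw [Subgroup.card_bot]
    exact (Nat.Prime.one_lt Fact.out).ne' ∘ Nat.dvd_one.mp) hb ha hba hDn le_rfl


end T25

section Plus

open scoped Nat

variable {O : Type u} [CommRing O] [IsDomain O] [IsDiscreteValuationRing O]
variable [IsAdicComplete (maximalIdeal O) O] [IsAlgClosed (ResidueField O)]
variable {G : Type} [Group G]

/-- Reduction for a normal subgroup centralising the defect group. -/
theorem central_reductionO {p : ℕ} [Fact p.Prime]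
    [CharP (ResidueField O) p] [Finite G] {N M D : Subgroup G} [N.Normal] [M.Normal] (hD : IsPGroup p D)
    (hDM : D ≤ M)
    (hND : ∀ x ∈ D, x ∈ N → ∀ n ∈ N, x * n = n * x) {b a : MonoidAlgebra (ResidueField O) G} (hb : IsBlock b)
    (ha : a ∈ Fix (cj (ResidueField O) G) D) (hba : b = tr (cj (ResidueField O) G) D ⊤ a) :
    ∃ (T : Subgroup G) (_ : (N.subgroupOf T).Normal) (H : Type) (_ : Group H) (_ : Finite H)
      (Z : Subgroup H) (π : H →* T ⧸ (N.subgroupOf T)) (Y : Subgroup T)
      (c : MonoidAlgebra (ResidueField O) H) (hc : IsBlock c), IsPGroup p Y ∧ (∀ z ∈ Z, ∀ h, z * h = h * z) ∧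
      ¬ p ∣ Nat.card Z ∧ Z ≤ π.ker ∧
      Nat.card π.ker = Nat.card Z * Nat.card Y ∧ EO O b c ∧
      ∃ (D' : Subgroup H) (a' : MonoidAlgebra (ResidueField O) H), Nat.card D' ≤ Nat.card D ∧
        a' ∈ Fix (cj (ResidueField O) H) D' ∧ c = tr (cj (ResidueField O) H) D' ⊤ a' ∧
        D' ≤ ((M.subgroupOf T).map (QuotientGroup.mk' (N.subgroupOf T))).comap π := by
  have hbB := isBlock_iff.mp hb
  obtain ⟨e, he, hbe⟩ := exists_isPrimIn (ZAlg (ResidueField O) N) ZAlg_comm hb.ne_zero
  have hcomm : e * b = b * e := commute_of_mem (SubAlg_top e) hbB.mem.2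
  obtain ⟨x, z, hz, hzF, hez⟩ := covering he hb.idem (by rwa [hcomm]) ha hba
  -- the central subgroup
  have hYn : (pZ p N).Normal := pZ_normal p ‹_›
  have hRY : N ⊓ conjS x D ≤ pZ p N := by
    intro w hw
    obtain ⟨hwN, hwD⟩ := Subgroup.mem_inf.mp hw
    rw [mem_conjS] at hwD
    refine ⟨hwN, fun n hn => ?_, ?_⟩
    · have h1 : x⁻¹ * n * x ∈ N := by
        have := ‹N.Normal›.conj_mem n hn x⁻¹
        simpa using this
      have h1' : x⁻¹ * w * x ∈ N := by
        have := ‹N.Normal›.conj_mem w hwN x⁻¹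
        simpa using this
      have h2 := hND _ hwD h1' _ h1
      calc w * n = x * ((x⁻¹ * w * x) * (x⁻¹ * n * x)) * x⁻¹ := by group
        _ = x * ((x⁻¹ * n * x) * (x⁻¹ * w * x)) * x⁻¹ := by rw [h2]
        _ = n * w := by group
    · obtain ⟨m, hm⟩ := hD ⟨_, hwD⟩
      refine ⟨m, ?_⟩
      have h3 : (x⁻¹ * w * x) ^ (p ^ m) = 1 := congrArg Subtype.val hm
      have h4 : (x⁻¹ * w * (x⁻¹)⁻¹) ^ (p ^ m) = 1 := by rwa [inv_inv]
      rw [conj_pow] at h4
      calc w ^ (p ^ m) = x * (x⁻¹ * w ^ (p ^ m) * (x⁻¹)⁻¹) * x⁻¹ := by group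
        _ = 1 := by rw [h4, mul_one, mul_inv_cancel]
  have hYN : pZ p N ≤ N := fun w hw => hw.1
  obtain ⟨z', hz'S, hz'F, hez'⟩ : ∃ z' ∈ SubAlg (ResidueField O) N, z' ∈ Fix (cj (ResidueField O) G) (pZ p N) ∧
      e = tr (cj (ResidueField O) G) (pZ p N) N z' := by
    refine ⟨tr (cj (ResidueField O) G) (N ⊓ conjS x D) (pZ p N) z, KP.tr_mem_SubAlg hz, tr_mem_Fix hzF, ?_⟩
    rw [tr_tr hzF hRY hYN]
    exact hez
  -- Fong-Reynolds
  obtain ⟨b', hb', hbb', -, x', a', ha', hba'⟩ := fong_reynolds he hb hbe ha hba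
  have hM : EO O b b' := EO_fr he hb hbe hb' hbb'
  have hNT : N ≤ stabE e := le_stabE he
  have hNn : (N.subgroupOf (stabE e)).Normal := inferInstance
  have hYT : pZ p N ≤ stabE e := hYN.trans hNT
  obtain ⟨e', he'⟩ := exists_incl (stabE e) (SubAlg_mono hNT he.mem.1)
  have heB : IsBlockOf (N.subgroupOf (stabE e)) e' := by
    rw [isBlockOf_subgroupOf_iff hNT, he']; exact he
  have heT : ∀ g, cj (ResidueField O) (stabE e) g e' = e' := by
    intro g
    apply incl_injective (k := ResidueField O) (stabE e)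
    rw [incl_cj, he']
    exact g.2
  have hbe' : b' * e' ≠ 0 := by
    intro h0
    apply hbe
    have h1 := congrArg (incl (ResidueField O) (stabE e)) h0
    rw [map_mul, he', hbb', map_zero, mul_assoc, he.idem.eq] at h1
    exact h1
  have hYn' : ((pZ p N).subgroupOf (stabE e)).Normal := inferInstance
  have hYp : IsPGroup p ((pZ p N).subgroupOf (stabE e)) := by
    rintro ⟨⟨w, hwT⟩, hw⟩
    rw [Subgroup.mem_subgroupOf] at hw
    obtain ⟨m, hm⟩ := hw.2.2
    exact ⟨m, Subtype.ext (Subtype.ext hm)⟩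
  have hYD : (pZ p N).subgroupOf (stabE e) ≤ (conjS x' D).subgroupOf (stabE e) :=
    op_le p hYp hb'.idem hb'.ne_zero ha' hba'
  have hcardD := card_subgroupOf_conjS_le (stabE e) x' D
  obtain ⟨H, _, _, Z, π, c, hc, hZc, hpZ, hZπ, hZi, hπ, hker, hcardH, hMc, D', a'', hD', ha'',
      hca'', hD'M⟩ := mainO (N := N.subgroupOf (stabE e)) (Y := (pZ p N).subgroupOf (stabE e)) hYp
    (by
      intro w hw
      exact hYN hw)
    (by
      intro y hy n hn
      exact Subtype.ext (hy.2.1 n hn)) heB heT hb' hbe'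
    (by
      obtain ⟨w, hw⟩ := exists_incl (stabE e) (SubAlg_mono hNT hz'S)
      have hmapN : (N.subgroupOf (stabE e)).map (stabE e).subtype = N :=
        Subgroup.map_subgroupOf_eq_of_le hNT
      have hmapY : ((pZ p N).subgroupOf (stabE e)).map (stabE e).subtype = pZ p N :=
        Subgroup.map_subgroupOf_eq_of_le hYT
      have hwF : w ∈ Fix (cj (ResidueField O) (stabE e)) ((pZ p N).subgroupOf (stabE e)) := by
        rw [← incl_mem_Fix_iff, hmapY, hw]; exact hz'F
      refine ⟨w, ?_, hwF, ?_⟩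
      · rw [← incl_mem_SubAlg_iff, hmapN, hw]; exact hz'S
      · apply incl_injective (k := ResidueField O) (stabE e)
        rw [incl_tr_gen _ hwF, hmapY, hmapN, hw, he']
        exact hez')
    ha' hba' hYD
  refine ⟨stabE e, hNn, H, inferInstance, inferInstance, Z, π,
    (pZ p N).subgroupOf (stabE e), c, hc, hYp, hZc, hpZ, hZπ, hker,
    hM.trans hMc, D', a'', hD'.trans hcardD, ha'', hca'', ?_⟩
  refine hD'M.trans (Subgroup.comap_mono (Subgroup.map_mono ?_))
  intro y hy
  rw [Subgroup.mem_subgroupOf, mem_conjS] at hy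
  rw [Subgroup.mem_subgroupOf]
  have h5 := ‹M.Normal›.conj_mem _ (hDM hy) x'
  simpa [mul_assoc] using h5

theorem T25plusO {p m n : ℕ} [Fact p.Prime] [CharP (ResidueField O) p]
    (hpm : p ≤ m) [Finite G] {N M : Subgroup G} [N.Normal] [M.Normal]
    (hM : Cls p m (M.map (QuotientGroup.mk' N))) {D : Subgroup G} (hD : IsPGroup p D)
    (hDM : D ≤ M) (hDN : ∀ x ∈ D, x ∈ N → ∀ n ∈ N, x * n = n * x) {a b : MonoidAlgebra (ResidueField O) G}
    (hb : IsBlock b)
    (ha : a ∈ Fix (cj (ResidueField O) G) D) (hba : b = tr (cj (ResidueField O) G) D ⊤ a) (hDn : Nat.card D ≤ n) :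
    ∃ (H : Type) (_ : Group H) (_ : Finite H) (c : MonoidAlgebra (ResidueField O) H) (hc : IsBlock c),
      Nat.card H ≤ (n ! * (n * m)! * n) ^ 2 ∧ EO O b c := by
  obtain ⟨T, hNT, H, iH, fH, Z, π, Y, c, hc, hY, hZc, hpZ, hZπ, hker, hMo, D', a', hD', ha', hca',
    hD'M⟩ := central_reductionO hD hDM hDN hb ha hba
  have hMT : (M.subgroupOf T).Normal := inferInstance
  have hMn' : ((M.subgroupOf T).map (QuotientGroup.mk' (N.subgroupOf T))).Normal :=
    Subgroup.Normal.map hMT _ (QuotientGroup.mk'_surjective _)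
  have hMn'' : (((M.subgroupOf T).map (QuotientGroup.mk' (N.subgroupOf T))).comap π).Normal :=
    inferInstance
  have hle : N.subgroupOf T ≤ N.comap T.subtype := le_refl _
  have hMq : Cls p m ((M.subgroupOf T).map (QuotientGroup.mk' (N.subgroupOf T))) := by
    let f : ((M.subgroupOf T).map (QuotientGroup.mk' (N.subgroupOf T))) →*
        (M.map (QuotientGroup.mk' N)) :=
      { toFun := fun x => ⟨QuotientGroup.map (N.subgroupOf T) N T.subtype hle x.1, by
          obtain ⟨y, hy, hyx⟩ := x.2
          rw [← hyx]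
          exact ⟨(y : G), hy, rfl⟩⟩
        map_one' := Subtype.ext (map_one _)
        map_mul' := fun x y => Subtype.ext (map_mul _ _ _) }
    refine hM.of_injective f ?_
    rw [injective_iff_map_eq_one]
    rintro ⟨q, hq⟩ h1
    apply Subtype.ext
    have h2 : QuotientGroup.map (N.subgroupOf T) N T.subtype hle q = 1 :=
      congrArg Subtype.val h1
    clear h1
    induction q using QuotientGroup.induction_on with
    | H t =>
      have h3 : ((T.subtype t : G) : G ⧸ N) = 1 := h2
      rw [QuotientGroup.eq_one_iff] at h3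
      exact (QuotientGroup.eq_one_iff t).mpr h3
  have hcls : Cls p m (((M.subgroupOf T).map (QuotientGroup.mk' (N.subgroupOf T))).comap π) :=
    cls_comap hpm hY hMq hZc hZπ hker
  obtain ⟨H', iH', fH', c', hc', hcard, hM'⟩ := T25O hpm hcls hD'M hc ha' hca' (hD'.trans hDn)
  exact ⟨H', iH', fH', c', hc', hcard, hMo.trans hM'⟩

end Plus

end Vale.Agent.P180.I
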