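import Vale.Agent.P180.Int.Tw

set_option linter.all false
set_option linter.style.haveILetI false
set_option maxHeartbeats 1000000

/-!
Morita equivalences over `O`.
-/

namespace Vale.Agent.P180.I

open IsLocalRing
open Vale.Agent.P180 (cst)
open Vale.Agent.P180.KP (vl vl_mul vl_one i_vl vl_i vl_vl_inv vl_inv_vl vl_ext exists_vl)

universe u

section Lf

variable {O : Type u} [CommRing O] [IsDomain O] [IsDiscreteValuationRing O]
variable [IsAdicComplete (maximalIdeal O) O]
variable {G : Type*} [Group G]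

/-- `B` is a central idempotent lifting `b` -/
structure Lf (B : MonoidAlgebra O G) (b : MonoidAlgebra (ResidueField O) G) : Prop where
  cen : ∀ x, x * B = B * x
  idem : IsIdempotentElem B
  rd_eq : rd B = b

theorem exists_lf [Finite G] {b : MonoidAlgebra (ResidueField O) G} (hc : ∀ x, x * b = b * x)
    (hb : b * b = b) : ∃ B : MonoidAlgebra O G, Lf B b := by
  obtain ⟨B, -, h1, h2, h3⟩ := exists_idem_IB (O := O) (N := (⊤ : Subgroup G)) (D := Set.univ)
    (f := b) (fun _ _ => trivial) (fun d _ => cg_eq_self_iff.mpr (hc _)) hb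
  exact ⟨B, fun x => comm_of (S := Set.univ) (fun _ _ => trivial) fun d _ => h1 d trivial, h2, h3⟩

theorem Lf.eq_of {B X : MonoidAlgebra O G} {b : MonoidAlgebra (ResidueField O) G} (hB : Lf B b)
    (hX : X * X = X) (hXb : rd X = b) : B = X :=
  eq_of_rd_eq hB.idem hX (hB.cen X).symm (by rw [hB.rd_eq, hXb])

theorem Lf.unique {B X : MonoidAlgebra O G} {b : MonoidAlgebra (ResidueField O) G} (hB : Lf B b) (hX : Lf X b) :
    B = X := hB.eq_of hX.idem hX.rd_eq

theorem Lf.mul {B C : MonoidAlgebra O G} {b c : MonoidAlgebra (ResidueField O) G} (hB : Lf B b) (hC : Lf C c) :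
    Lf (B * C) (b * c) where
  cen x := by rw [← mul_assoc, hB.cen, mul_assoc, hC.cen, mul_assoc]
  idem := by
    change B * C * (B * C) = B * C
    rw [mul_assoc, ← mul_assoc C B C, hB.cen C, mul_assoc B C C, hC.idem.eq, ← mul_assoc,
      hB.idem.eq]
  rd_eq := by rw [map_mul, hB.rd_eq, hC.rd_eq]

end Lf

section EO

variable (O : Type u) [CommRing O] [IsDomain O] [IsDiscreteValuationRing O]
variable [IsAdicComplete (maximalIdeal O) O]

/-- The block algebras over `O` of (the lifts of) `b` and `c` are Morita equivalent. -/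
def EO {G H : Type} [Group G] [Group H] (b : MonoidAlgebra (ResidueField O) G) (c : MonoidAlgebra (ResidueField O) H) : Prop :=
  ∃ (B : MonoidAlgebra O G) (C : MonoidAlgebra O H) (hB : Lf B b) (hC : Lf C c),
    IsMoritaEquivalent O hB.idem.Corner hC.idem.Corner

variable {O}

theorem EO.trans {G H K : Type} [Group G] [Group H] [Group K] {b : MonoidAlgebra (ResidueField O) G}
    {c : MonoidAlgebra (ResidueField O) H} {d : MonoidAlgebra (ResidueField O) K} (h1 : EO O b c) (h2 : EO O c d) :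
    EO O b d := by
  obtain ⟨B, C, hB, hC, h3⟩ := h1
  obtain ⟨C', D, hC', hD, h4⟩ := h2
  obtain rfl := hC.unique hC'
  exact ⟨B, D, hB, hD, IsMoritaEquivalent.trans O h3 h4⟩

/-- cutting with a full idempotent -/
theorem full_corner {G : Type} [Group G] [Finite G] {B F : MonoidAlgebra O G}
    {b f : MonoidAlgebra (ResidueField O) G} (hB : Lf B b) (hF : IsIdempotentElem F) (hBF : B * F = F)
    (hf : rd F = f)
    (h : ∃ (n : ℕ) (x y : Fin n → MonoidAlgebra (ResidueField O) G), ∑ i, x i * f * y i = b) :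
    IsMoritaEquivalent O hB.idem.Corner hF.Corner := by
  obtain ⟨n, x, y, hxy⟩ := h
  have hX : ∀ i, ∃ X : MonoidAlgebra O G, Sp Set.univ X ∧ rd X = x i := fun i =>
    exists_rd (fun _ _ => trivial)
  have hY : ∀ i, ∃ X : MonoidAlgebra O G, Sp Set.univ X ∧ rd X = y i := fun i =>
    exists_rd (fun _ _ => trivial)
  choose X _ hX using hX
  choose Y _ hY using hY
  obtain ⟨u, hu⟩ : ∃ u, u = B * ∑ i, X i * F * Y i := ⟨_, rfl⟩
  have hu1 : rd u = b := by
    have hbb : b * b = b := by rw [← hB.rd_eq, ← map_mul, hB.idem.eq]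
    rw [hu, map_mul, map_sum]
    simp only [map_mul, hX, hY, hf]
    rw [hxy, hB.rd_eq, hbb]
  have hBu : B * u = u := by rw [hu, ← mul_assoc, hB.idem.eq]
  obtain ⟨v, hv1, hv2, -⟩ := exists_inv_of_rd (x := u + (1 - B)) (by
    rw [map_add, map_sub, map_one, hu1, hB.rd_eq]; abel)
  have h1 : B = u * v := by
    have h2 : B * (u + (1 - B)) = u := by
      rw [mul_add, mul_sub, mul_one, hB.idem.eq, sub_self, add_zero, hBu]
    conv_lhs => rw [← mul_one B, ← hv1, ← mul_assoc, h2]
  apply isMoritaEquivalent_corner_corner hB.idem hF hBF (by rw [hB.cen, hBF])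
  refine ⟨n, fun i => B * X i, fun i => Y i * v, ?_⟩
  conv_rhs => rw [h1, hu, mul_assoc, Finset.sum_mul, Finset.mul_sum]
  refine Finset.sum_congr rfl fun i _ => ?_
  simp only [mul_assoc]

/-- Linear inclusion of a corner. -/
def cornerLin {R A : Type*} [CommRing R] [Ring A] [Algebra R A] {e : A}
    (he : IsIdempotentElem e) : he.Corner →ₗ[R] A where
  toFun x := x.1
  map_add' _ _ := rfl
  map_smul' _ _ := rfl

/-- injectivity on saturated submodules -/
theorem inj_sat {G H : Type} [Group G] [Group H] [Finite H] (M : Submodule O (MonoidAlgebra O H))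
    (hsat : ∀ (w : O) m, w ≠ 0 → w • m ∈ M → m ∈ M)
    (f : MonoidAlgebra O H →ₗ[O] MonoidAlgebra O G) (hf : ∀ m ∈ M, rd (f m) = 0 → rd m = 0) :
    ∀ m ∈ M, f m = 0 → m = 0 := by
  obtain ⟨w, hw0, hw⟩ := exists_unif O
  have key : ∀ n, ∀ m ∈ M, f m = 0 → Dv n m := by
    intro n
    induction n with
    | zero => intro m _ _; exact Dv.all _
    | succ n ih =>
      intro m hm hfm
      have h1 : Dv 1 m := by
        rw [← rd_eq_zero_iff]
        exact hf m hm (by rw [hfm, map_zero])
      obtain ⟨m', rfl⟩ := Dv.exists_smul hw h1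
      have hm' : m' ∈ M := hsat w m' hw0 hm
      have hfm' : f m' = 0 := smul_cancel hw0 (by rw [← map_smul, hfm, smul_zero])
      have h2 := (ih m' hm' hfm').smul (m := 1) (r := w)
        (by rw [pow_one, hw]; exact Ideal.mem_span_singleton_self w)
      rwa [add_comm] at h2
  intro m hm hfm
  exact Dv.eq_zero fun n => key n m hm hfm

/-- the algebra map over `O` attached to `Φ` -/
noncomputable def LO {H : Type} [Group H] {E : Type u} [Ring E] [Algebra O E] (Φ : H →* Eˣ) :
    MonoidAlgebra O H →ₐ[O] E :=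
  MonoidAlgebra.lift O E H ((Units.coeHom E).comp Φ)

theorem LO_single {H : Type} [Group H] {E : Type u} [Ring E] [Algebra O E] (Φ : H →* Eˣ)
    (h : H) (r : O) : LO Φ (MonoidAlgebra.single h r) = r • (Φ h : E) := by
  rw [LO, MonoidAlgebra.lift_single]; rfl

/-- the corner of the image -/
theorem corner_equiv_of {R A M : Type*} [CommRing R] [Ring A] [Algebra R A] [Ring M] [Algebra R M]
    (L : A →ₐ[R] M) {c : A} (hc : IsIdempotentElem c) {β : M} (hβ : IsIdempotentElem β)
    (hLc : L c = β) (hs : ∀ y, ∃ x, L x = y) (hinj : ∀ x, c * x = x → L x = 0 → x = 0) :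
    Nonempty (hc.Corner ≃ₐ[R] hβ.Corner) := by
  let ψ : hc.Corner →ₐ[R] hβ.Corner :=
    { toFun := fun x => cornerOf hβ (L x.1)
        (by rw [← hLc, ← map_mul, corner_left]) (by rw [← hLc, ← map_mul, corner_right])
      map_one' := corner_ext hLc
      map_mul' := fun x y => corner_ext (map_mul L x.1 y.1)
      map_zero' := corner_ext (map_zero L)
      map_add' := fun x y => corner_ext (map_add L x.1 y.1)
      commutes' := fun r => corner_ext (by
        change L (r • c) = r • β
        rw [map_smul, hLc]) }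
  refine ⟨AlgEquiv.ofBijective ψ ⟨?_, ?_⟩⟩
  · rw [injective_iff_map_eq_zero]
    intro x hx
    apply corner_ext
    apply hinj
    · exact corner_left hc x
    · exact congrArg Subtype.val hx
  · intro y
    obtain ⟨x, hx⟩ := hs y.1
    refine ⟨mkCorner hc x, corner_ext ?_⟩
    change L (c * x * c) = y.1
    rw [map_mul, map_mul, hLc, hx, corner_left hβ y, corner_right hβ y]

section Tw

variable {G H : Type} [Group G] [Finite G] [Group H] [Finite H] {I : MonoidAlgebra O G}
variable {hI : IsIdempotentElem I} {hi : IsIdempotentElem (rd I)} {φ : H →* hi.Cornerˣ}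
variable {ε : MonoidAlgebra (ResidueField O) H}
variable {s : hi.Corner →ₗ[ResidueField O] MonoidAlgebra (ResidueField O) H}
variable {Φ : H →* hI.Cornerˣ}

theorem rd_LO (hΦ : ∀ h, rd (vl hI (Φ h)) = vl hi (φ h)) (x : MonoidAlgebra O H) :
    rd (LO Φ x).1 = (liftU φ (rd x)).1 := by
  induction x using MonoidAlgebra.induction_linear with
  | zero =>
    rw [map_zero, map_zero, map_zero]
    exact map_zero rd
  | add a b ha hb =>
    rw [map_add, map_add, map_add]
    change rd ((LO Φ a).1 + (LO Φ b).1) = (liftU φ (rd a)).1 + (liftU φ (rd b)).1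
    rw [map_add, ha, hb]
  | single h r =>
    rw [LO_single, rd_single, liftU_single]
    change rd (r • vl hI (Φ h)) = residue O r • vl hi (φ h)
    rw [rd_smul, hΦ]

theorem LO_surj (hΦ : ∀ h, rd (vl hI (Φ h)) = vl hi (φ h)) (hs2 : ∀ y : hi.Corner, liftU (k := (ResidueField O)) φ (s y) = y)
    (z : hI.Corner) : ∃ x : MonoidAlgebra O H, LO Φ x = z := by
  have hII : I * I = I := hI
  let M₁ : Submodule O (MonoidAlgebra O G) :=
    { carrier := {m | I * m = m ∧ m * I = m}
      add_mem' := by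
        rintro a b ⟨h1, h2⟩ ⟨h3, h4⟩
        exact ⟨by rw [mul_add, h1, h3], by rw [add_mul, h2, h4]⟩
      zero_mem' := ⟨mul_zero _, zero_mul _⟩
      smul_mem' := by
        rintro c a ⟨h1, h2⟩
        exact ⟨by rw [mul_smul_comm, h1], by rw [smul_mul_assoc, h2]⟩ }
  have h1 := nak (M₁ := M₁) (M₂ := LinearMap.range ((cornerLin hI).comp (LO Φ).toLinearMap))
    (by
      rintro _ ⟨x, rfl⟩
      exact ⟨corner_left hI _, corner_right hI _⟩)
    (by
      rintro w m hw ⟨h1, h2⟩
      exact ⟨smul_cancel hw (by rw [← mul_smul_comm, h1]),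
        smul_cancel hw (by rw [← smul_mul_assoc, h2])⟩)
    (by
      rintro m ⟨h1, h2⟩
      obtain ⟨x, -, hx⟩ := exists_rd (O := O) (S := Set.univ)
        (b := s (cornerOf hi (rd m) (by rw [← map_mul, h1]) (by rw [← map_mul, h2])))
        (fun _ _ => trivial)
      refine ⟨_, ⟨x, rfl⟩, ?_⟩
      change rd m = rd (LO Φ x).1
      rw [rd_LO hΦ, hx, hs2]
      rfl)
  obtain ⟨x, hx⟩ := h1 (show z.1 ∈ M₁ from ⟨corner_left hI _, corner_right hI _⟩)
  exact ⟨x, corner_ext hx⟩

theorem LO_inj (hΦ : ∀ h, rd (vl hI (Φ h)) = vl hi (φ h)) (hs1 : ∀ x : MonoidAlgebra (ResidueField O) H, s (liftU φ x) = ε * x)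
    {E : MonoidAlgebra O H} (hE : Lf E ε) (x : MonoidAlgebra O H) (hx : E * x = x)
    (hx0 : LO Φ x = 0) : x = 0 := by
  let M : Submodule O (MonoidAlgebra O H) :=
    { carrier := {m | E * m = m}
      add_mem' := by
        intro a b h1 h2
        change E * (a + b) = a + b
        rw [mul_add, show E * a = a from h1, show E * b = b from h2]
      zero_mem' := mul_zero _
      smul_mem' := by
        intro c a h1
        change E * (c • a) = c • a
        rw [mul_smul_comm, show E * a = a from h1] }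
  refine inj_sat M ?_ ((cornerLin hI).comp (LO Φ).toLinearMap) ?_ x hx ?_
  · intro w m hw hm
    exact smul_cancel hw (by
      rw [← mul_smul_comm]
      exact hm)
  · intro m hm h0
    have hm' : E * m = m := hm
    have h1 : (liftU φ (rd m)).1 = 0 := by rw [← rd_LO hΦ]; exact h0
    have h2 : liftU φ (rd m) = 0 := corner_ext h1
    rw [← hm', map_mul, hE.rd_eq, ← hs1, h2, map_zero]
  · change (LO Φ x).1 = 0
    rw [hx0]; rfl

/-- the map on block idempotents -/
theorem LO_block (hε : ε ∈ Subalgebra.center (ResidueField O) (MonoidAlgebra (ResidueField O) H))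
    (hs1 : ∀ x : MonoidAlgebra (ResidueField O) H, s (liftU φ x) = ε * x) (hs2 : ∀ y : hi.Corner, liftU (k := (ResidueField O)) φ (s y) = y)
    (hΦ : ∀ h, rd (vl hI (Φ h)) = vl hi (φ h)) {b : MonoidAlgebra (ResidueField O) G} {B : MonoidAlgebra O G}
    (hB : Lf B b) {β : hi.Corner} (hβ : β.1 = rd I * b) :
    ∃ (E C : MonoidAlgebra O H), Lf E ε ∧ Lf C (s β) ∧ E * C = C ∧ (LO Φ C).1 = I * B := by
  have hII : I * I = I := hI
  have hIB : (I * B) * (I * B) = I * B := by
    rw [mul_assoc, ← mul_assoc B I B, ← hB.cen I, mul_assoc I B B, hB.idem.eq, ← mul_assoc, hII]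
  have hbc : ∀ x, x * b = b * x := by
    intro x
    obtain ⟨X, -, hX⟩ := exists_rd (O := O) (S := Set.univ) (b := x) (fun _ _ => trivial)
    rw [← hX, ← hB.rd_eq, ← map_mul, ← map_mul, hB.cen]
  have hbb : b * b = b := by rw [← hB.rd_eq, ← map_mul, hB.idem.eq]
  have hεs : ε = s 1 := by
    have := hs1 1
    rw [map_one, mul_one] at this
    exact this.symm
  have hεε : ε * ε = ε := by
    conv_lhs => rhs; rw [hεs]
    rw [s_eps hs1 hs2, ← hεs]
  obtain ⟨E, hE⟩ := exists_lf (O := O) (fun x => Subalgebra.mem_center_iff.mp hε x) hεε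
  have hLmul : ∀ x y : MonoidAlgebra O H, (LO Φ (x * y)).1 = (LO Φ x).1 * (LO Φ y).1 := by
    intro x y; rw [map_mul]; rfl
  have hββ : β * β = β := by
    apply corner_ext
    change β.1 * β.1 = β.1
    rw [hβ, mul_assoc, ← mul_assoc b (rd I) b, ← hbc (rd I), mul_assoc (rd I) b b, hbb,
      ← mul_assoc, hi.eq]
  have hβc : ∀ w : hi.Corner, w * β = β * w := by
    intro w
    apply corner_ext
    change w.1 * β.1 = β.1 * w.1
    rw [hβ, ← mul_assoc, corner_right hi w, hbc, mul_assoc (rd I) b w.1, ← hbc, ← mul_assoc,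
      corner_left hi w, hbc]
  have hsβ : s β * s β = s β := by
    rw [s_mul_left hε hs1 hs2, hs2, hββ]
  have hsβc : ∀ x, x * s β = s β * x := by
    intro x
    rw [s_mul_left hε hs1 hs2, s_mul_right hε hs1 hs2, hβc]
  obtain ⟨C, hC⟩ := exists_lf (O := O) hsβc hsβ
  have hEC : E * C = C := by
    have h1 := hE.mul hC
    rw [s_eps hs1 hs2] at h1
    exact h1.unique hC
  refine ⟨E, C, hE, hC, hEC, ?_⟩
  apply eq_of_rd_eq
  · rw [← hLmul, hC.idem.eq]
  · exact hIB
  · have h1 : (LO Φ C).1 * I = (LO Φ C).1 := corner_right hI _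
    have h2 : I * (LO Φ C).1 = (LO Φ C).1 := corner_left hI _
    rw [← mul_assoc, h1, mul_assoc, ← hB.cen, ← mul_assoc, h2]
  · rw [rd_LO hΦ, hC.rd_eq, hs2, hβ, map_mul, hB.rd_eq]

/-- The block algebra of `s β` over `O`. -/
theorem EO_twisted (hε : ε ∈ Subalgebra.center (ResidueField O) (MonoidAlgebra (ResidueField O) H))
    (hs1 : ∀ x : MonoidAlgebra (ResidueField O) H, s (liftU φ x) = ε * x) (hs2 : ∀ y : hi.Corner, liftU (k := (ResidueField O)) φ (s y) = y)
    (hΦ : ∀ h, rd (vl hI (Φ h)) = vl hi (φ h))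
    {b : MonoidAlgebra (ResidueField O) G} (hbc : ∀ x, x * b = b * x) (hbb : b * b = b)
    {β : hi.Corner} (hβ : β.1 = rd I * b)
    (hfull : ∃ (n : ℕ) (x y : Fin n → MonoidAlgebra (ResidueField O) G), ∑ l, x l * (rd I * b) * y l = b) :
    EO O b (s β) := by
  obtain ⟨B, hB⟩ := exists_lf (O := O) hbc hbb
  have hII : I * I = I := hI
  have hIB : IsIdempotentElem (I * B) := by
    change I * B * (I * B) = I * B
    rw [mul_assoc, ← mul_assoc B I B, ← hB.cen I, mul_assoc I B B, hB.idem.eq, ← mul_assoc, hII]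
  obtain ⟨E, C, hE, hC, hEC, hLC⟩ := LO_block hε hs1 hs2 hΦ hB hβ
  have h1 : I * (I * B) = I * B := by rw [← mul_assoc, hII]
  have h2 : (I * B) * I = I * B := by rw [mul_assoc, ← hB.cen, ← mul_assoc, hII]
  obtain ⟨ψ⟩ := corner_equiv_of (LO Φ) hC.idem (subIdem_idem hI hIB h1 h2) (corner_ext hLC)
    (LO_surj hΦ hs2) (fun x hx hx0 => LO_inj hΦ hs1 hE x (by rw [← hx, ← mul_assoc, hEC]) hx0)
  refine ⟨B, C, hB, hC, ?_⟩
  have h3 : IsMoritaEquivalent O hB.idem.Corner hIB.Corner := by
    refine full_corner hB hIB (f := rd I * b) ?_ ?_ hfull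
    · rw [← mul_assoc, ← hB.cen, mul_assoc, hB.idem.eq]
    · rw [map_mul, hB.rd_eq]
  refine IsMoritaEquivalent.trans O h3 ?_
  have h4 : IsMoritaEquivalent O hIB.Corner (subIdem_idem hI hIB h1 h2).Corner :=
    IsMoritaEquivalent.of_algEquiv O (cornerCornerEquiv hI hIB h1 h2).symm
  refine IsMoritaEquivalent.trans O h4 ?_
  exact IsMoritaEquivalent.of_algEquiv O ψ.symm

end Tw

end EO

end Vale.Agent.P180.I
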