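import Vale.Agent.P180.Int.Red

set_option linter.all false

/-!
Units and roots in `O[C]`, `C` a finite abelian `p`-group, `O` complete local.
-/

namespace Vale.Agent.P180.I

open IsLocalRing

section OC

variable {O : Type*} [CommRing O] [IsLocalRing O] [IsAdicComplete (maximalIdeal O) O]
variable {C : Type*} [CommGroup C] [Finite C]

theorem unit_of_residue {r : O} (h : residue O r ≠ 0) : IsUnit r := by
  by_contra hu
  exact h ((residue_eq_zero_iff r).mpr ((mem_maximalIdeal r).mpr hu))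

/-- roots of elements congruent to one -/
theorem exists_root1 {q : ℕ} (hq : (q : ResidueField O) ≠ 0) {x : MonoidAlgebra O C}
    (hx : rd x = 1) : ∃ y, rd y = 1 ∧ y ^ q = x := by
  have hqu : IsUnit (q : O) := unit_of_residue (by rwa [map_natCast])
  obtain ⟨u, hu⟩ := hqu
  let w : O := ((u⁻¹ : Oˣ) : O)
  have hw : (q : O) * w = 1 := by rw [← hu]; exact Units.mul_inv u
  let h : MonoidAlgebra O C → MonoidAlgebra O C := fun y => y - w • (y ^ q - x)
  let s : ℕ → MonoidAlgebra O C := fun n => h^[n] 1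
  have hs1 : ∀ n, s (n + 1) = h (s n) := fun n => Function.iterate_succ_apply' h n 1
  have hq0 : q ≠ 0 := by rintro rfl; simp at hq
  have hboth : ∀ n, Dv 1 (s n - 1) ∧ Dv (n + 1) (s n ^ q - x) := by
    intro n
    induction n with
    | zero =>
      refine ⟨?_, ?_⟩
      · change Dv 1 (1 - 1); rw [sub_self]; exact Dv.zero _
      · change Dv (0 + 1) (1 ^ q - x)
        rw [zero_add, one_pow, ← rd_eq_zero_iff, map_sub, map_one, hx, sub_self]
    | succ n ih =>
      obtain ⟨ih1, ih2⟩ := ih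
      have hwm : Dv (n + 1) (w • (s n ^ q - x)) := by
        have := ih2.smul (m := 0) (r := w) (by simp)
        rwa [zero_add] at this
      refine ⟨?_, ?_⟩
      · rw [hs1]
        have : h (s n) - 1 = (s n - 1) - w • (s n ^ q - x) := by simp only [h]; ring
        rw [this]
        exact ih1.sub (hwm.mono (by omega))
      · rw [hs1]
        obtain ⟨c, hc⟩ := Polynomial.powAddExpansion (s n) (-(w • (s n ^ q - x))) q
        have h1 : h (s n) = s n + -(w • (s n ^ q - x)) := by simp only [h]; ring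
        have h3 : (q : MonoidAlgebra O C) * s n ^ (q - 1) * (-(w • (s n ^ q - x))) =
            - (s n ^ (q - 1) * (s n ^ q - x)) := by
          have h4 : (q : MonoidAlgebra O C) = algebraMap O _ (q : O) := by rw [map_natCast]
          rw [h4, Algebra.smul_def]
          have h5 : algebraMap O (MonoidAlgebra O C) (q : O) * algebraMap O _ w = 1 := by
            rw [← map_mul, hw, map_one]
          calc _ = - ((algebraMap O (MonoidAlgebra O C) (q : O) * algebraMap O _ w) *
                (s n ^ (q - 1) * (s n ^ q - x))) := by ring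
            _ = _ := by rw [h5, one_mul]
        have h2 : h (s n) ^ q - x = -((s n ^ (q - 1) - 1) * (s n ^ q - x)) +
            c * (w • (s n ^ q - x)) * (w • (s n ^ q - x)) := by
          rw [h1, hc, h3]; ring
        rw [h2]
        have h6 : Dv 1 (s n ^ (q - 1) - 1) := by
          rw [← rd_eq_zero_iff] at ih1 ⊢
          rw [map_sub, map_one, sub_eq_zero] at ih1 ⊢
          rw [map_pow, ih1, one_pow]
        have h7 : Dv (1 + (n + 1)) ((s n ^ (q - 1) - 1) * (s n ^ q - x)) := h6.mul ih2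
        have h8 := (hwm.mul_left c).mul hwm
        exact (h7.mono (by omega)).neg.add (h8.mono (by omega))
  obtain ⟨y, hy⟩ := exists_lim s (fun n => by
    rw [hs1]
    have : h (s n) - s n = -(w • (s n ^ q - x)) := by simp only [h]; ring
    rw [this]
    have h9 := (hboth n).2.smul (m := 0) (r := w) (by simp)
    rw [zero_add] at h9
    exact (h9.mono (Nat.le_succ n)).neg)
  refine ⟨y, ?_, ?_⟩
  · have h1 := (hy 1).add (hboth 1).1
    rw [sub_add_sub_cancel, ← rd_eq_zero_iff, map_sub, map_one, sub_eq_zero] at h1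
    exact h1
  · rw [← sub_eq_zero]
    apply Dv.eq_zero
    intro n
    have h1 : y ^ q - x = (y ^ q - s n ^ q) + (s n ^ q - x) := by ring
    rw [h1]
    have h2 : Dv n (y ^ q - s n ^ q) := by
      obtain ⟨c, hc⟩ := sub_dvd_pow_sub_pow y (s n) q
      rw [hc]
      exact (hy n).mul_right c
    exact h2.add ((hboth n).2.mono (Nat.le_succ n))

/-- an element of `O[C]` whose reduction is a unit is a unit -/
theorem isUnit_of_rd {l : MonoidAlgebra O C} (h : IsUnit (rd l)) : IsUnit l := by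
  obtain ⟨u, hu⟩ := h
  obtain ⟨y, hy, -, -⟩ := exists_inv_of_rd' (x := l) (z := ((u⁻¹ : _ˣ) : MonoidAlgebra _ C))
    (by rw [← hu]; exact Units.mul_inv u) (by rw [← hu]; exact Units.inv_mul u)
  exact IsUnit.of_mul_eq_one _ hy

variable {p : ℕ} [Fact p.Prime] [CharP (ResidueField O) p]

theorem isUnit_of_au (hC : IsPGroup p C) {l : MonoidAlgebra O C}
    (h : residue O (au O C l) ≠ 0) : IsUnit l := by
  apply isUnit_of_rd
  apply KP.isUnit_of_aug hC
  rw [rd_au] at h
  exact h

/-- roots of unity of order prime to `p` in `O[C]` are scalars -/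
theorem root_eq' (hC : IsPGroup p C) {q : ℕ} (hq : (q : ResidueField O) ≠ 0)
    {l : MonoidAlgebra O C} (hl : l ^ q = 1) :
    l = algebraMap O _ (au O C l) ∧ au O C l ^ q = 1 := by
  have h1 : au O C l ^ q = 1 := by rw [← map_pow, hl, map_one]
  refine ⟨?_, h1⟩
  have hq0 : q ≠ 0 := by rintro rfl; simp at hq
  obtain ⟨q', rfl⟩ := Nat.exists_eq_succ_of_ne_zero hq0
  set s := au O C l with hs
  have hs1 : s * s ^ q' = 1 := by rw [← pow_succ']; exact h1
  set x := l * algebraMap O _ (s ^ q') with hx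
  have hx1 : x ^ (q' + 1) = 1 := by
    rw [hx, mul_pow, ← map_pow, ← pow_mul, mul_comm q', pow_mul, h1, one_pow, map_one, mul_one]
    exact hl
  have hxa : au O C x = 1 := by
    rw [hx, map_mul, ← hs]
    have : au O C (algebraMap O _ (s ^ q')) = s ^ q' := (au O C).commutes _
    rw [this, hs1]
  have h2 : (x - 1) * ∑ j ∈ Finset.range (q' + 1), x ^ j = 0 := by
    rw [mul_geom_sum, hx1, sub_self]
  have h3 : IsUnit (∑ j ∈ Finset.range (q' + 1), x ^ j) := by
    apply isUnit_of_au hC
    rw [map_sum]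
    simp only [map_pow, hxa, one_pow, Finset.sum_const, Finset.card_range, nsmul_eq_mul, mul_one]
    rw [map_natCast]
    exact hq
  have h4 : x = 1 := by
    rw [← sub_eq_zero]
    exact (h3.mul_left_eq_zero).mp h2
  calc l = x * algebraMap O _ s := by
        rw [hx, mul_assoc, ← map_mul, mul_comm (s ^ q'), hs1, map_one, mul_one]
    _ = _ := by rw [h4, one_mul]

/-- all roots of order prime to `p` of units -/
theorem exists_root' [IsAlgClosed (ResidueField O)] (hC : IsPGroup p C) {q : ℕ}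
    (hq : (q : ResidueField O) ≠ 0) {u : MonoidAlgebra O C} (hu : IsUnit u) :
    ∃ l : MonoidAlgebra O C, IsUnit l ∧ l ^ q = u := by
  obtain ⟨l0, hl0, hl0q⟩ := KP.exists_root hC hq (hu.map rd)
  obtain ⟨l1, -, hl1⟩ := exists_rd (O := O) (S := Set.univ) (b := l0) (fun _ _ => trivial)
  have hl1u : IsUnit l1 := isUnit_of_rd (by rw [hl1]; exact hl0)
  obtain ⟨m, hm⟩ := hl1u
  have hx : rd (u * ((m⁻¹ : _ˣ) : MonoidAlgebra O C) ^ q) = 1 := by
    have h1 : rd (((m⁻¹ : _ˣ) : MonoidAlgebra O C)) * l0 = 1 := by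
      rw [← hl1, ← hm, ← map_mul, Units.inv_mul, map_one]
    rw [map_mul, map_pow, ← hl0q, ← mul_pow, mul_comm, h1, one_pow]
  obtain ⟨y, hy1, hy2⟩ := exists_root1 hq hx
  have hyu : IsUnit y := isUnit_of_rd (by rw [hy1]; exact isUnit_one)
  refine ⟨y * m, hyu.mul m.isUnit, ?_⟩
  rw [mul_pow, hy2, mul_assoc, ← mul_pow, Units.inv_mul, one_pow, mul_one]

/-- roots of unity of order prime to the residue characteristic -/
def Mu (t : O) : Prop := ∃ m : ℕ, (m : ResidueField O) ≠ 0 ∧ t ^ m = 1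

theorem Mu.one : Mu (1 : O) := ⟨1, by simp, one_pow 1⟩

theorem Mu.mul {s t : O} (hs : Mu s) (ht : Mu t) : Mu (s * t) := by
  obtain ⟨m, hm, h1⟩ := hs
  obtain ⟨n, hn, h2⟩ := ht
  refine ⟨m * n, by rw [Nat.cast_mul]; exact mul_ne_zero hm hn, ?_⟩
  rw [mul_pow, pow_mul, h1, one_pow, mul_comm m n, pow_mul, h2, one_pow, mul_one]

theorem Mu.exists_inv {t : O} (ht : Mu t) : ∃ s, Mu s ∧ t * s = 1 := by
  obtain ⟨m, hm, h1⟩ := ht
  have hm0 : m ≠ 0 := by rintro rfl; simp at hm
  obtain ⟨m', rfl⟩ := Nat.exists_eq_succ_of_ne_zero hm0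
  refine ⟨t ^ m', ⟨m' + 1, hm, ?_⟩, by rw [← pow_succ']; exact h1⟩
  rw [← pow_mul, mul_comm, pow_mul, h1, one_pow]

theorem Mu.eq_one {t : O} (ht : Mu t) (h : residue O t = 1) : t = 1 := by
  obtain ⟨m, hm, h1⟩ := ht
  have h2 : (t - 1) * ∑ j ∈ Finset.range m, t ^ j = 0 := by
    rw [mul_geom_sum, h1, sub_self]
  have h3 : IsUnit (∑ j ∈ Finset.range m, t ^ j) := by
    apply unit_of_residue
    rw [map_sum]
    simp only [map_pow, h, one_pow, Finset.sum_const, Finset.card_range, nsmul_eq_mul, mul_one]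
    exact hm
  rw [← sub_eq_zero]
  exact (h3.mul_left_eq_zero).mp h2

theorem exists_Mu {t : ResidueField O} {m : ℕ} (hm : (m : ResidueField O) ≠ 0) (ht : t ^ m = 1) :
    ∃ s : O, s ^ m = 1 ∧ residue O s = t := by
  obtain ⟨t0, ht0⟩ := residue_surjective t
  let C := Multiplicative (ZMod 1)
  have hx : rd (algebraMap O (MonoidAlgebra O C) (t0 ^ m)) = 1 := by
    have : (algebraMap O (MonoidAlgebra O C) (t0 ^ m)) = MonoidAlgebra.single 1 (t0 ^ m) := rfl
    rw [this, rd_single, map_pow, ht0, ht]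
    rfl
  obtain ⟨y, hy1, hy2⟩ := exists_root1 hm hx
  have h1 : au O C y ^ m = t0 ^ m := by
    rw [← map_pow, hy2]
    exact (au O C).commutes _
  have h2 : residue O (au O C y) = 1 := by rw [rd_au, hy1, map_one]
  have hu : IsUnit (au O C y) := unit_of_residue (by rw [h2]; exact one_ne_zero)
  obtain ⟨u, hu⟩ := hu
  refine ⟨t0 * ((u⁻¹ : Oˣ) : O), ?_, ?_⟩
  · rw [mul_pow, ← h1, ← hu, ← mul_pow, Units.mul_inv, one_pow]
  · rw [map_mul, ht0]
    have h3 : residue O ((u⁻¹ : Oˣ) : O) = 1 := by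
      have h4 := congrArg (residue O) (Units.mul_inv u)
      rw [map_mul, hu, h2, one_mul, map_one] at h4
      exact h4
    rw [h3, mul_one]

/-- a root of order prime to `p` of (root of unity) * (group element) is of the same form -/
theorem root_single (hC : IsPGroup p C) {q : ℕ} (hq : (q : ResidueField O) ≠ 0)
    {l : MonoidAlgebra O C} {y : C} {t : O} (ht : Mu t)
    (hl : l ^ q = MonoidAlgebra.single y t) : ∃ y' t', Mu t' ∧ l = MonoidAlgebra.single y' t' := by
  obtain ⟨m, hm, htm⟩ := ht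
  have hp : p.Prime := Fact.out
  obtain ⟨n, hn⟩ := IsPGroup.iff_card.mp hC
  have hcop : Nat.Coprime q (orderOf y) := by
    have h1 : orderOf y ∣ p ^ n := by rw [← hn]; exact orderOf_dvd_natCard y
    apply Nat.Coprime.coprime_dvd_right h1
    apply Nat.Coprime.pow_right
    rw [Nat.coprime_comm, hp.coprime_iff_not_dvd]
    intro h
    exact hq ((CharP.cast_eq_zero_iff (ResidueField O) p q).mpr h)
  obtain ⟨j, hj⟩ := exists_pow_eq_self_of_coprime hcop
  -- `y = (y ^ j) ^ q`
  have hyj : (y ^ j) ^ q = y := by rw [← pow_mul, mul_comm, pow_mul, hj]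
  set l1 := l * MonoidAlgebra.single (y ^ j)⁻¹ 1 with hl1
  have h1 : l1 ^ q = algebraMap O _ t := by
    rw [hl1, mul_pow, hl, MonoidAlgebra.single_pow, inv_pow, hyj, one_pow,
      MonoidAlgebra.single_mul_single, mul_inv_cancel, mul_one]
    rfl
  have h2 : l1 ^ (q * m) = 1 := by rw [pow_mul, h1, ← map_pow, htm, map_one]
  obtain ⟨h3, h4⟩ := root_eq' hC (q := q * m)
    (by rw [Nat.cast_mul]; exact mul_ne_zero hq hm) h2
  refine ⟨y ^ j, au O C l1, ⟨q * m, by rw [Nat.cast_mul]; exact mul_ne_zero hq hm, h4⟩, ?_⟩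
  have h5 : l = l1 * MonoidAlgebra.single (y ^ j) 1 := by
    rw [hl1, mul_assoc, MonoidAlgebra.single_mul_single, inv_mul_cancel, mul_one,
      ← MonoidAlgebra.one_def, mul_one]
  rw [h5]
  conv_lhs => rw [h3]
  have : algebraMap O (MonoidAlgebra O C) (au O C l1) = MonoidAlgebra.single 1 (au O C l1) := rfl
  rw [this, MonoidAlgebra.single_mul_single, one_mul, mul_one]

end OC

end Vale.Agent.P180.I
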