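import Vale.Agent.P180.Int.Gr

set_option linter.all false

/-!
Reduction modulo the maximal ideal of group algebras over a complete discrete valuation ring,
lifting of idempotents and units.
-/

namespace Vale.Agent.P180.I

open IsLocalRing

section Red

variable {O : Type*} [CommRing O] [IsLocalRing O] {G : Type*} [Group G]

/-- Reduction of the coefficients modulo the maximal ideal. -/
noncomputable def rd : MonoidAlgebra O G →+* MonoidAlgebra (ResidueField O) G :=
  MonoidAlgebra.mapRingHom G (residue O)

theorem rd_coeff (a : MonoidAlgebra O G) (x : G) : (rd a).coeff x = residue O (a.coeff x) :=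
  MonoidAlgebra.coeff_mapRingHom _ _ _

theorem rd_single (x : G) (r : O) :
    rd (MonoidAlgebra.single x r) = MonoidAlgebra.single x (residue O r) := by
  classical
  apply MonoidAlgebra.coeff_injective
  ext y
  rw [rd_coeff, MonoidAlgebra.coeff_single, MonoidAlgebra.coeff_single, Finsupp.single_apply,
    Finsupp.single_apply]
  split_ifs <;> simp

theorem rd_smul (r : O) (a : MonoidAlgebra O G) : rd (r • a) = residue O r • rd a := by
  apply MonoidAlgebra.coeff_injective
  ext y
  rw [rd_coeff]
  simp [rd_coeff]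

theorem Sp.rd {S : Set G} {a : MonoidAlgebra O G} (ha : Sp S a) : Sp S (rd a) := by
  intro x hx
  apply ha x
  intro h
  apply hx
  rw [rd_coeff, h, map_zero]

theorem rd_cg (g : G) (a : MonoidAlgebra O G) : rd (cg O g a) = cg (ResidueField O) g (rd a) := by
  apply MonoidAlgebra.coeff_injective
  ext y
  rw [rd_coeff, cg_coeff, cg_coeff, rd_coeff]

theorem rd_kp {C : Type*} [CommGroup C] (κ : C →* G) (l : MonoidAlgebra O C) :
    rd (kp O κ l) = kp (ResidueField O) κ (rd l) := by
  induction l using MonoidAlgebra.induction_linear with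
  | zero => simp
  | add a b ha hb => rw [map_add, map_add, map_add, map_add, ha, hb]
  | single c r => rw [kp_single, rd_single, rd_single, kp_single]

theorem rd_au {C : Type*} [CommGroup C] (l : MonoidAlgebra O C) :
    residue O (au O C l) = au (ResidueField O) C (rd l) := by
  induction l using MonoidAlgebra.induction_linear with
  | zero => simp
  | add a b ha hb => rw [map_add, map_add, map_add, map_add, ha, hb]
  | single c r => rw [au_single, rd_single, au_single]

/-- all coefficients lie in the `n`-th power of the maximal ideal -/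
def Dv (n : ℕ) (a : MonoidAlgebra O G) : Prop := ∀ x, a.coeff x ∈ maximalIdeal O ^ n

theorem rd_eq_zero_iff {a : MonoidAlgebra O G} : rd a = 0 ↔ Dv 1 a := by
  constructor
  · intro h x
    rw [pow_one, ← residue_eq_zero_iff, ← rd_coeff, h]
    simp
  · intro h
    apply MonoidAlgebra.coeff_injective
    ext x
    have := h x
    rw [pow_one, ← residue_eq_zero_iff] at this
    rw [rd_coeff, this]
    simp

theorem Dv.zero (n : ℕ) : Dv n (0 : MonoidAlgebra O G) := by
  intro x; simp

theorem Dv.add {n : ℕ} {a b : MonoidAlgebra O G} (ha : Dv n a) (hb : Dv n b) : Dv n (a + b) := by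
  intro x
  have := Ideal.add_mem _ (ha x) (hb x)
  simpa using this

theorem Dv.neg {n : ℕ} {a : MonoidAlgebra O G} (ha : Dv n a) : Dv n (-a) := by
  intro x
  have := (Ideal.neg_mem_iff _).mpr (ha x)
  simpa using this

theorem Dv.sub {n : ℕ} {a b : MonoidAlgebra O G} (ha : Dv n a) (hb : Dv n b) : Dv n (a - b) := by
  rw [sub_eq_add_neg]; exact ha.add hb.neg

theorem Dv.mono {m n : ℕ} (h : m ≤ n) {a : MonoidAlgebra O G} (ha : Dv n a) : Dv m a :=
  fun x => Ideal.pow_le_pow_right h (ha x)

theorem Dv.all (a : MonoidAlgebra O G) : Dv 0 a := by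
  intro x; simp

theorem Dv.mul {m n : ℕ} {a b : MonoidAlgebra O G} (ha : Dv m a) (hb : Dv n b) :
    Dv (m + n) (a * b) := by
  intro x
  rw [MonoidAlgebra.coeff_mul_apply_left]
  refine Ideal.sum_mem _ fun y _ => ?_
  rw [pow_add]
  exact Ideal.mul_mem_mul (ha y) (hb _)

theorem Dv.mul_left {n : ℕ} {b : MonoidAlgebra O G} (a : MonoidAlgebra O G) (hb : Dv n b) :
    Dv n (a * b) := by
  have := (Dv.all a).mul hb
  rwa [zero_add] at this

theorem Dv.mul_right {n : ℕ} {a : MonoidAlgebra O G} (ha : Dv n a) (b : MonoidAlgebra O G) :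
    Dv n (a * b) := by
  have := ha.mul (Dv.all b)
  rwa [add_zero] at this

theorem Dv.smul {m n : ℕ} {a : MonoidAlgebra O G} (ha : Dv n a) {r : O}
    (hr : r ∈ maximalIdeal O ^ m) : Dv (m + n) (r • a) := by
  intro x
  have : (r • a).coeff x = r * a.coeff x := by simp
  rw [this, pow_add]
  exact Ideal.mul_mem_mul hr (ha x)

theorem Dv.cg {n : ℕ} {a : MonoidAlgebra O G} (ha : Dv n a) (g : G) : Dv n (cg O g a) := by
  intro x
  rw [cg_coeff]
  exact ha _

/-- lifting elements with prescribed support -/
theorem exists_rd [Finite G] {S : Set G} {b : MonoidAlgebra (ResidueField O) G} (hb : Sp S b) :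
    ∃ a : MonoidAlgebra O G, Sp S a ∧ rd a = b := by
  classical
  have hs : ∀ x : G, ∃ r : O, residue O r = b.coeff x ∧ (b.coeff x = 0 → r = 0) := by
    intro x
    by_cases h : b.coeff x = 0
    · exact ⟨0, by rw [h, map_zero], fun _ => rfl⟩
    · obtain ⟨r, hr⟩ := residue_surjective (b.coeff x)
      exact ⟨r, hr, fun h' => absurd h' h⟩
  choose r hr hr0 using hs
  refine ⟨MonoidAlgebra.ofCoeff (Finsupp.equivFunOnFinite.symm r), ?_, ?_⟩
  · intro x hx
    apply hb x
    intro h
    exact hx (hr0 x h)
  · apply MonoidAlgebra.coeff_injective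
    ext x
    rw [rd_coeff, ← hr]
    rfl

variable [IsHausdorff (maximalIdeal O) O]

theorem Dv.eq_zero {a : MonoidAlgebra O G} (h : ∀ n, Dv n a) : a = 0 := by
  apply MonoidAlgebra.coeff_injective
  ext x
  apply IsHausdorff.haus (I := maximalIdeal O) inferInstance
  intro n
  rw [SModEq.zero, smul_eq_mul, Ideal.mul_top]
  exact h n x

end Red

section Cpl

variable {O : Type*} [CommRing O] [IsLocalRing O] {G : Type*} [Group G]
variable [IsAdicComplete (maximalIdeal O) O]

/-- limits -/
theorem exists_lim [Finite G] (f : ℕ → MonoidAlgebra O G)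
    (hf : ∀ n, Dv n (f (n + 1) - f n)) : ∃ F, ∀ n, Dv n (F - f n) := by
  classical
  have hmn : ∀ m d, Dv m (f (m + d) - f m) := by
    intro m d
    induction d with
    | zero => rw [add_zero, sub_self]; exact Dv.zero _
    | succ d ih =>
      have h1 : f (m + (d + 1)) - f m = (f (m + d + 1) - f (m + d)) + (f (m + d) - f m) := by
        rw [← add_assoc]; abel
      rw [h1]
      exact ((hf (m + d)).mono (Nat.le_add_right _ _)).add ih
  have hlim : ∀ x : G, ∃ L : O, ∀ n, (f n).coeff x ≡ L [SMOD (maximalIdeal O ^ n • ⊤ : Submodule O O)] := by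
    intro x
    apply IsPrecomplete.prec' (I := maximalIdeal O) (M := O) (fun n => (f n).coeff x)
    intro m n hmn'
    obtain ⟨d, rfl⟩ := Nat.exists_eq_add_of_le hmn'
    rw [SModEq.comm, SModEq.sub_mem, smul_eq_mul, Ideal.mul_top]
    have := hmn m d x
    simpa using this
  choose L hL using hlim
  refine ⟨MonoidAlgebra.ofCoeff (Finsupp.equivFunOnFinite.symm L), ?_⟩
  intro n x
  have h1 := hL x n
  rw [SModEq.comm, SModEq.sub_mem, smul_eq_mul, Ideal.mul_top] at h1
  have h2 : (MonoidAlgebra.ofCoeff (Finsupp.equivFunOnFinite.symm L) - f n).coeff x =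
      L x - (f n).coeff x := by
    simp [MonoidAlgebra.coeff_sub, Finsupp.sub_apply]
  rw [h2]
  exact h1

/-- Lifting of idempotents. -/
theorem exists_idem [Finite G] (B : Subring (MonoidAlgebra O G))
    (hB : ∀ a, (∀ n, ∃ b ∈ B, Dv n (a - b)) → a ∈ B) {f : MonoidAlgebra (ResidueField O) G}
    (hf : f * f = f) {f₀ : MonoidAlgebra O G} (h₀ : f₀ ∈ B) (hf₀ : rd f₀ = f) :
    ∃ F ∈ B, F * F = F ∧ rd F = f := by
  let h : MonoidAlgebra O G → MonoidAlgebra O G := fun x => 3 * (x * x) - 2 * (x * x * x)
  let s : ℕ → MonoidAlgebra O G := fun n => h^[n] f₀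
  have hs1 : ∀ n, s (n + 1) = h (s n) := fun n => Function.iterate_succ_apply' h n f₀
  have hsB : ∀ n, s n ∈ B := by
    intro n
    induction n with
    | zero => exact h₀
    | succ n ih =>
      rw [hs1]
      have h3 : (3 : MonoidAlgebra O G) ∈ B := by exact_mod_cast natCast_mem B 3
      have h2 : (2 : MonoidAlgebra O G) ∈ B := by exact_mod_cast natCast_mem B 2
      exact B.sub_mem (B.mul_mem h3 (B.mul_mem ih ih))
        (B.mul_mem h2 (B.mul_mem (B.mul_mem ih ih) ih))
  have hid : ∀ n, Dv (n + 1) (s n * s n - s n) := by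
    intro n
    induction n with
    | zero =>
      rw [zero_add, ← rd_eq_zero_iff, map_sub, map_mul]
      change rd f₀ * rd f₀ - rd f₀ = 0
      rw [hf₀, hf, sub_self]
    | succ n ih =>
      rw [hs1]
      have h1 : h (s n) * h (s n) - h (s n) =
          (s n * s n - s n) * (s n * s n - s n) * (4 * (s n * s n - s n) - 3) := by
        simp only [h]; noncomm_ring
      rw [h1]
      exact (((ih.mul ih).mono (by omega)).mul_right _)
  have hst : ∀ n, Dv (n + 1) (s (n + 1) - s n) := by
    intro n
    rw [hs1]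
    have h1 : h (s n) - s n = (s n * s n - s n) * (1 - 2 * s n) := by
      simp only [h]; noncomm_ring
    rw [h1]
    exact (hid n).mul_right _
  obtain ⟨F, hF⟩ := exists_lim s fun n => (hst n).mono (Nat.le_succ n)
  refine ⟨F, hB F fun n => ⟨s n, hsB n, hF n⟩, ?_, ?_⟩
  · rw [← sub_eq_zero]
    apply Dv.eq_zero
    intro n
    have h1 : F * F - F = (F - s n) * F + s n * (F - s n) + (s n * s n - s n) - (F - s n) := by
      noncomm_ring
    rw [h1]
    exact ((((hF n).mul_right _).add ((hF n).mul_left _)).add ((hid n).mono (Nat.le_succ n))).sub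
      (hF n)
  · have h1 : Dv 1 (F - f₀) := by
      have h2 : F - f₀ = (F - s 1) + (s 1 - s 0) := by
        change F - f₀ = (F - s 1) + (s 1 - f₀); abel
      rw [h2]
      exact (hF 1).add (hst 0)
    rw [← rd_eq_zero_iff, map_sub, hf₀, sub_eq_zero] at h1
    exact h1

theorem eq_of_rd_eq {e f : MonoidAlgebra O G} (he : e * e = e) (hf : f * f = f)
    (hef : e * f = f * e) (h : rd e = rd f) : e = f := by
  have h1 : (e - f) * (e - f) * (e - f) = e - f := by
    have h2 : (e - f) * (e - f) = e + f - 2 * (e * f) := by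
      rw [sub_mul, mul_sub, mul_sub, he, hf, ← hef]; noncomm_ring
    rw [h2]
    have h3 : e * f * e = e * f := by rw [mul_assoc, ← hef, ← mul_assoc, he]
    have h4 : e * f * f = e * f := by rw [mul_assoc, hf]
    have h5 : (e + f - 2 * (e * f)) * (e - f) = e * e - e * f + (f * e - f * f)
      - (2 * (e * f * e) - 2 * (e * f * f)) := by noncomm_ring
    rw [h5, h3, h4, he, hf, ← hef]
    abel
  have h0 : Dv 1 (e - f) := by rw [← rd_eq_zero_iff, map_sub, h, sub_self]
  rw [← sub_eq_zero]
  apply Dv.eq_zero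
  intro n
  induction n with
  | zero => exact Dv.all _
  | succ n ih =>
    rw [← h1]
    have := (ih.mul_right (e - f)).mul h0
    exact this

/-- an element which is one modulo the maximal ideal is a unit -/
theorem exists_inv_of_rd [Finite G] {x : MonoidAlgebra O G} (hx : rd x = 1) :
    ∃ y, x * y = 1 ∧ y * x = 1 ∧ rd y = 1 := by
  let t : MonoidAlgebra O G := 1 - x
  have ht : Dv 1 t := by rw [← rd_eq_zero_iff, map_sub, map_one, hx, sub_self]
  have htp : ∀ n, Dv n (t ^ n) := by
    intro n
    induction n with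
    | zero => exact Dv.all _
    | succ n ih => rw [pow_succ]; exact ih.mul ht
  let s : ℕ → MonoidAlgebra O G := fun n => ∑ l ∈ Finset.range n, t ^ l
  obtain ⟨y, hy⟩ := exists_lim s (fun n => by
    have : s (n + 1) - s n = t ^ n := by
      simp only [s]; rw [Finset.sum_range_succ]; abel
    rw [this]; exact htp n)
  have hxt : x = 1 - t := by simp only [t]; abel
  have h1 : ∀ n, x * s n = 1 - t ^ n := by
    intro n
    rw [hxt]
    exact mul_neg_geom_sum t n
  have h2 : ∀ n, s n * x = 1 - t ^ n := by
    intro n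
    rw [hxt]
    exact geom_sum_mul_neg t n
  have h3 : x * y = 1 := by
    rw [← sub_eq_zero]
    apply Dv.eq_zero
    intro n
    have : x * y - 1 = x * (y - s n) - t ^ n := by rw [mul_sub, h1]; abel
    rw [this]
    exact ((hy n).mul_left _).sub (htp n)
  have h4 : y * x = 1 := by
    rw [← sub_eq_zero]
    apply Dv.eq_zero
    intro n
    have : y * x - 1 = (y - s n) * x - t ^ n := by rw [sub_mul, h2]; abel
    rw [this]
    exact ((hy n).mul_right _).sub (htp n)
  refine ⟨y, h3, h4, ?_⟩
  have h5 := congrArg rd h3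
  rwa [map_mul, hx, one_mul, map_one] at h5

/-- a unit modulo the maximal ideal is a unit -/
theorem exists_inv_of_rd' [Finite G] {x : MonoidAlgebra O G}
    {z : MonoidAlgebra (ResidueField O) G} (hxz : rd x * z = 1) (hzx : z * rd x = 1) :
    ∃ y, x * y = 1 ∧ y * x = 1 ∧ rd y = z := by
  obtain ⟨w, -, hw⟩ := exists_rd (O := O) (S := Set.univ) (b := z) (fun _ _ => trivial)
  obtain ⟨a, ha1, ha2, ha3⟩ := exists_inv_of_rd (x := x * w) (by rw [map_mul, hw, hxz])
  obtain ⟨b, hb1, hb2, hb3⟩ := exists_inv_of_rd (x := w * x) (by rw [map_mul, hw, hzx])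
  have h1 : x * (w * a) = 1 := by rw [← mul_assoc, ha1]
  have h2 : (b * w) * x = 1 := by rw [mul_assoc, hb2]
  have h3 : b * w = w * a := by
    calc b * w = b * w * (x * (w * a)) := by rw [h1, mul_one]
      _ = (b * w * x) * (w * a) := by simp only [mul_assoc]
      _ = w * a := by rw [h2, one_mul]
  refine ⟨w * a, h1, by rw [← h3]; exact h2, ?_⟩
  rw [map_mul, ha3, hw, mul_one]

end Cpl

end Vale.Agent.P180.I
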