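import Vale.Agent.P180.Int.Main2
import Vale.Agent.P180.Int.Fam

set_option linter.all false
set_option linter.style.haveILetI false

/-!
P180, normal series: the statements for a block of `k[G]` and for a block of `O[G]`.
-/

namespace Vale.Agent.P180.H768.Gd

open IsLocalRing
open Vale.Agent.P180
open Vale.Agent.P180.I (EO rd Lf isBlock_rd isBlockR_of_lf exists_trace_rd isBlockR_iff)

universe u

/-- over `k` -/
theorem series_field {k : Type u} [Field k] [IsAlgClosed k] {p : ℕ} [Fact p.Prime] [CharP k p]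
    {n m : ℕ} (hpm : p ≤ m) {G : Type} [Group G] [Finite G] {b : MonoidAlgebra k G}
    (hb : IsBlockR b) {D : Subgroup G} (hD : IsDefectGroupR b D) (hn : Nat.card D ≤ n) (l : ℕ)
    (N : ℕ → Subgroup G) [∀ i, (N i).Normal] (h0 : N 0 = ⊥) (hl : N l = ⊤)
    (hle : ∀ i < l, N i ≤ N (i + 1))
    (hlay : ∀ i < l, RC p n m (N i) (N (i + 1)) ∨
      ∀ x ∈ D, x ∈ N (i + 1) → ∀ y ∈ N (i + 1), x * y * x⁻¹ * y⁻¹ ∈ N i) :
    ∃ (H : Type) (_ : Group H) (_ : Finite H) (c : MonoidAlgebra k H) (hc : IsBlockR c),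
      Nat.card H ≤ FF (2 * n + 1) n m ∧ IsMoritaEquivalent k hb.Alg hc.Alg := by
  obtain ⟨H, iH, fH, c, hc, hcard, hM⟩ :=
    core hpm (isBlockR_iff.mp hb) hD hn l N h0 hl hle hlay
  exact ⟨H, iH, fH, c, isBlockR_iff.mpr hc, hcard, hM⟩

/-- over `O` -/
theorem series_integral {O : Type u} [CommRing O] [IsDomain O] [IsDiscreteValuationRing O]
    [IsAdicComplete (maximalIdeal O) O] [IsAlgClosed (ResidueField O)]
    {p : ℕ} [Fact p.Prime] [CharP (ResidueField O) p]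
    {n m : ℕ} (hpm : p ≤ m) {G : Type} [Group G] [Finite G] {B : MonoidAlgebra O G}
    (hB : IsBlockR B) {D : Subgroup G}
    (hD : IsDefectGroupR B D ∨ IsDefectGroupR (MonoidAlgebra.mapRingHom G (residue O) B) D)
    (hn : Nat.card D ≤ n) (l : ℕ)
    (N : ℕ → Subgroup G) [∀ i, (N i).Normal] (h0 : N 0 = ⊥) (hl : N l = ⊤)
    (hle : ∀ i < l, N i ≤ N (i + 1))
    (hlay : ∀ i < l, RC p n m (N i) (N (i + 1)) ∨
      ∀ x ∈ D, x ∈ N (i + 1) → ∀ y ∈ N (i + 1), x * y * x⁻¹ * y⁻¹ ∈ N i) :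
    ∃ (H : Type) (_ : Group H) (_ : Finite H) (C : MonoidAlgebra O H) (hC : IsBlockR C),
      Nat.card H ≤ FF (2 * n + 1) n m ∧ IsMoritaEquivalent O hB.Alg hC.Alg := by
  obtain ⟨hb, hlf⟩ := isBlock_rd hB
  obtain ⟨a, ha, hba⟩ : ∃ a ∈ Fix (cj (ResidueField O) G) D,
      rd B = tr (cj (ResidueField O) G) D ⊤ a := by
    rcases hD with h | h
    · exact exists_trace_rd hB h.prop
    · exact exists_trace hb (hb.isSummand h.prop)
  obtain ⟨H', iH, fH, c, hc, hcard, B', C, hB', hC, hM⟩ :=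
    OI.core (O := O) hpm hb ha hba hn l N h0 hl hle hlay
  obtain rfl := hB'.unique hlf
  exact ⟨H', iH, fH, C, isBlockR_of_lf hc hC, hcard, hM⟩

end Vale.Agent.P180.H768.Gd
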