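import Vale.Agent.P180.Int.Main
import Vale.Agent.P180.Int.Defs

set_option linter.all false
set_option linter.style.haveILetI false
set_option maxHeartbeats 1000000

/-!
Relative projectivity over a commutative ring (as in `Bdl.B1`, there over a field).
-/

namespace Vale.Agent.P180.I

universe u

open Representation
open Vale.Agent.P180

section Blocks

variable {k : Type u} [CommRing k] {G : Type} [Group G]

/-- The two-sided ideal `kGb` as a `k[G × G]`-module: `(g, h) • x = g x h⁻¹`. -/
noncomputable def rp {b : MonoidAlgebra k G} (hb : IsBlockR b) :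
    Representation k (G × G) (LinearMap.range (LinearMap.mulRight k b)) where
  toFun x :=
    { toFun := fun v => ⟨MonoidAlgebra.single x.1 1 * v.1 * MonoidAlgebra.single x.2⁻¹ 1, by
        obtain ⟨a, ha⟩ := v.2
        refine ⟨MonoidAlgebra.single x.1 1 * a * MonoidAlgebra.single x.2⁻¹ 1, ?_⟩
        have hc := (Subalgebra.mem_center_iff.mp hb.central) (MonoidAlgebra.single x.2⁻¹ 1)
        rw [← ha]
        simp only [LinearMap.mulRight_apply]
        rw [mul_assoc, hc]
        simp only [mul_assoc]⟩
      map_add' := fun v w => Subtype.ext (by simp [mul_add, add_mul])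
      map_smul' := fun c v => Subtype.ext (by simp) }
  map_one' := LinearMap.ext fun v => Subtype.ext (by simp [← MonoidAlgebra.one_def])
  map_mul' x y := LinearMap.ext fun v => Subtype.ext (by
    have h1 : (MonoidAlgebra.single (x * y).1 1 : MonoidAlgebra k G) =
        MonoidAlgebra.single x.1 1 * MonoidAlgebra.single y.1 1 := by simp
    have h2 : (MonoidAlgebra.single (x * y).2⁻¹ 1 : MonoidAlgebra k G) =
        MonoidAlgebra.single y.2⁻¹ 1 * MonoidAlgebra.single x.2⁻¹ 1 := by simp
    simp only [LinearMap.coe_mk, AddHom.coe_mk, Module.End.mul_apply, h1, h2, mul_assoc])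

/-- The `k[G × G]`-module `kGb` is a direct summand of a module induced from the diagonal subgroup
`{(x, x) : x ∈ D}`. -/
def IsSm {b : MonoidAlgebra k G} (hb : IsBlockR b) (D : Subgroup G) : Prop :=
  ∃ (W : Type u) (_ : AddCommGroup W) (_ : Module k W) (ρ : Representation k D W)
    (i : (rp hb).IntertwiningMap (Representation.ind (diagHom D) ρ))
    (q : (Representation.ind (diagHom D) ρ).IntertwiningMap (rp hb)), ∀ v, q (i v) = v

theorem isSm {b : MonoidAlgebra k G} (hb : IsBlockR b) {D : Subgroup G}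
    (h : IsSummandOfInducedR b D) : IsSm hb D := by
  obtain ⟨W, _, _, ρ, i, q, hi, hq, hqb, hqi⟩ := h
  refine ⟨W, inferInstance, inferInstance, ρ, ?_, ?_, ?_⟩
  · exact
      { toLinearMap := i ∘ₗ (LinearMap.range (LinearMap.mulRight k b)).subtype
        isIntertwining' := by
          intro t
          ext v
          exact hi t.1 t.2 v.1 }
  · exact
      { toLinearMap := q.codRestrict (LinearMap.range (LinearMap.mulRight k b))
          (fun w => ⟨q w, hqb w⟩)
        isIntertwining' := by
          intro t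
          refine LinearMap.ext fun w => Subtype.ext ?_
          exact hq t.1 t.2 w }
  · rintro ⟨v, a, rfl⟩
    apply Subtype.ext
    refine hqi _ ?_
    change a * b * b = a * b
    rw [mul_assoc, hb.idem.eq]


end Blocks

section Filt

variable {k : Type u} [CommRing k] {H : Type} [Group H]

open scoped Classical in
/-- Restriction of the support to a set. -/
noncomputable def filtR (k : Type u) [CommRing k] {H : Type} (S : Set H) :
    MonoidAlgebra k H →ₗ[k] MonoidAlgebra k H where
  toFun a := MonoidAlgebra.ofCoeff (a.coeff.filter fun x : H => x ∈ S)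
  map_add' a b := by
    apply MonoidAlgebra.coeff_injective
    simp [Finsupp.filter_add]
  map_smul' r a := by
    apply MonoidAlgebra.coeff_injective
    simp [Finsupp.filter_smul]

open scoped Classical in
theorem filtR_single (S : Set H) (x : H) (c : k) :
    filtR k S (MonoidAlgebra.single x c) = if x ∈ S then MonoidAlgebra.single x c else 0 := by
  apply MonoidAlgebra.coeff_injective
  change (MonoidAlgebra.single x c).coeff.filter (fun x : H => x ∈ S) = _
  rw [MonoidAlgebra.coeff_single]
  split_ifs with h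
  · rw [Finsupp.filter_single_of_pos _ h, MonoidAlgebra.coeff_single]
  · rw [Finsupp.filter_single_of_neg _ h, MonoidAlgebra.coeff_zero]

variable {D : Type} [Group D] (φ : D →* H) {W : Type u} [AddCommGroup W] [Module k W]
  (ρ : Representation k D W)

/-- Projection of the induced module onto the component of the trivial coset. -/
noncomputable def piIndR : IndV φ ρ →ₗ[k] IndV φ ρ :=
  Coinvariants.map _ _ ⟨(filtR k (φ.range : Set H)).rTensor W, fun d => by
    apply TensorProduct.ext
    refine MonoidAlgebra.lhom_ext' fun h => LinearMap.ext_ring ?_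
    ext w
    classical
    have h1 : φ d * h ∈ (φ.range : Set H) ↔ h ∈ (φ.range : Set H) := by
      constructor
      · intro h2
        have := φ.range.mul_mem (φ.range.inv_mem ⟨d, rfl⟩) h2
        simpa using this
      · intro h2
        exact φ.range.mul_mem ⟨d, rfl⟩ h2
    have h2 : filtR k (φ.range : Set H) (MonoidAlgebra.single (φ d * h) 1) =
        leftRegular k H (φ d) (filtR k (φ.range : Set H) (MonoidAlgebra.single h 1)) := by
      rw [filtR_single, filtR_single]
      by_cases hh : h ∈ (φ.range : Set H)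
      · rw [if_pos hh, if_pos (h1.mpr hh)]
        simp
      · rw [if_neg hh, if_neg (fun h3 => hh (h1.mp h3)), map_zero]
    change filtR k (φ.range : Set H) (leftRegular k H (φ d) (MonoidAlgebra.single h 1)) ⊗ₜ[k]
        (ρ d w) = leftRegular k H (φ d) (filtR k (φ.range : Set H) (MonoidAlgebra.single h 1)) ⊗ₜ[k]
        (ρ d w)
    have h3 : leftRegular k H (φ d) (MonoidAlgebra.single h (1 : k)) =
        MonoidAlgebra.single (φ d * h) 1 := by simp
    rw [h3, h2]⟩

open scoped Classical in
theorem piIndR_mk (h : H) (w : W) :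
    piIndR φ ρ (IndV.mk φ ρ h w) = if h ∈ φ.range then IndV.mk φ ρ h w else 0 := by
  change Coinvariants.mk _ ((filtR k (φ.range : Set H)).rTensor W
    (TensorProduct.mk k _ _ (MonoidAlgebra.single h 1) w)) = _
  rw [TensorProduct.mk_apply, LinearMap.rTensor_tmul, filtR_single]
  change Coinvariants.mk _ ((if h ∈ φ.range then MonoidAlgebra.single h (1 : k) else 0) ⊗ₜ[k] w) = _
  split_ifs with hh
  · rfl
  · rw [TensorProduct.zero_tmul, map_zero]

end Filt

section Main

variable {k : Type u} [CommRing k] {G : Type} [Group G] [Finite G]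
variable (D : Subgroup G) {W : Type u} [AddCommGroup W] [Module k W] (ρ : Representation k D W)

theorem mem_range_diagHomR {x : G × G} : x ∈ (diagHom D).range ↔ x.1 = x.2 ∧ x.2 ∈ D := by
  constructor
  · rintro ⟨d, rfl⟩
    exact ⟨rfl, d.2⟩
  · rintro ⟨h1, h2⟩
    exact ⟨⟨x.2, h2⟩, Prod.ext h1.symm rfl⟩

/-- The decomposition of the identity of the induced module. -/
theorem sum_piIndR [Fintype G] [Fintype (G ⧸ D)] (w : IndV (diagHom D) ρ) :
    ∑ q : G ⧸ D, ∑ g : G, ind (diagHom D) ρ (g * q.out, q.out)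
      (piIndR (diagHom D) ρ (ind (diagHom D) ρ (g * q.out, q.out)⁻¹ w)) = w := by
  classical
  have key : ∑ q : G ⧸ D, ∑ g : G, (ind (diagHom D) ρ (g * q.out, q.out)) ∘ₗ
      (piIndR (diagHom D) ρ ∘ₗ (ind (diagHom D) ρ (g * q.out, q.out)⁻¹)) = LinearMap.id := by
    apply IndV.hom_ext
    intro h
    refine LinearMap.ext fun w => ?_
    have h1 : ∀ (q : G ⧸ D) (g : G), ind (diagHom D) ρ (g * q.out, q.out)
        (piIndR (diagHom D) ρ (ind (diagHom D) ρ (g * q.out, q.out)⁻¹
          (IndV.mk (diagHom D) ρ h w))) =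
        if (q = ((h.2⁻¹ : G) : G ⧸ D) ∧ g = h.1⁻¹ * h.2) then IndV.mk (diagHom D) ρ h w
        else 0 := by
      intro q g
      rw [ind_mk, inv_inv, piIndR_mk]
      have h2 : h * (g * q.out, q.out) ∈ (diagHom D).range ↔
          (q = ((h.2⁻¹ : G) : G ⧸ D) ∧ g = h.1⁻¹ * h.2) := by
        rw [mem_range_diagHomR]
        simp only [Prod.fst_mul, Prod.snd_mul]
        constructor
        · rintro ⟨h3, h4⟩
          refine ⟨?_, ?_⟩
          · rw [← QuotientGroup.out_eq' q]
            symm
            rw [QuotientGroup.eq, inv_inv]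
            exact h4
          · rw [← mul_assoc] at h3
            have h5 := mul_right_cancel h3
            rw [← h5]; group
        · rintro ⟨h3, h4⟩
          refine ⟨?_, ?_⟩
          · rw [h4]; group
          · rw [← QuotientGroup.out_eq' q] at h3
            have h5 := h3.symm
            rw [QuotientGroup.eq, inv_inv] at h5
            exact h5
      by_cases h3 : h * (g * q.out, q.out) ∈ (diagHom D).range
      · rw [if_pos h3, if_pos (h2.mp h3), ind_mk, mul_assoc, mul_inv_cancel, mul_one]
      · rw [if_neg h3, if_neg (fun h4 => h3 (h2.mpr h4)), map_zero]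
    rw [LinearMap.id_comp, LinearMap.comp_apply, LinearMap.sum_apply]
    rw [Finset.sum_congr rfl fun q _ => (LinearMap.sum_apply _ _ _).trans
      (Finset.sum_congr rfl fun g _ => h1 q g)]
    rw [Finset.sum_eq_single ((h.2⁻¹ : G) : G ⧸ D), Finset.sum_eq_single (h.1⁻¹ * h.2)]
    · simp
    · intro g _ hg
      rw [if_neg]
      rintro ⟨_, h3⟩
      exact hg h3
    · intro h3
      exact absurd (Finset.mem_univ _) h3
    · intro q _ hq
      apply Finset.sum_eq_zero
      intro g _
      rw [if_neg]
      rintro ⟨h3, _⟩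
      exact hq h3
    · intro h3
      exact absurd (Finset.mem_univ _) h3
  have := congrArg (fun f => f w) key
  simpa [LinearMap.sum_apply] using this

theorem piIndR_comm (d : D) (w : IndV (diagHom D) ρ) :
    piIndR (diagHom D) ρ (ind (diagHom D) ρ (diagHom D d) w) =
      ind (diagHom D) ρ (diagHom D d) (piIndR (diagHom D) ρ w) := by
  classical
  have key : piIndR (diagHom D) ρ ∘ₗ ind (diagHom D) ρ (diagHom D d) =
      ind (diagHom D) ρ (diagHom D d) ∘ₗ piIndR (diagHom D) ρ := by
    apply IndV.hom_ext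
    intro h
    refine LinearMap.ext fun w => ?_
    change piIndR (diagHom D) ρ (ind (diagHom D) ρ (diagHom D d) (IndV.mk (diagHom D) ρ h w)) =
      ind (diagHom D) ρ (diagHom D d) (piIndR (diagHom D) ρ (IndV.mk (diagHom D) ρ h w))
    rw [ind_mk, piIndR_mk, piIndR_mk]
    have h1 : h * (diagHom D d)⁻¹ ∈ (diagHom D).range ↔ h ∈ (diagHom D).range := by
      constructor
      · intro h2
        have := (diagHom D).range.mul_mem h2 ⟨d, rfl⟩
        simpa using this
      · intro h2
        exact (diagHom D).range.mul_mem h2 ((diagHom D).range.inv_mem ⟨d, rfl⟩)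
    by_cases hh : h ∈ (diagHom D).range
    · rw [if_pos hh, if_pos (h1.mpr hh), ind_mk]
    · rw [if_neg hh, if_neg (fun h3 => hh (h1.mp h3)), map_zero]
  exact congrArg (fun f => f w) key

theorem exists_traceR {b : MonoidAlgebra k G} (hb : IsBlockR b) {D : Subgroup G}
    (h : IsSm hb D) [Fintype (G ⧸ D)] : ∃ a : MonoidAlgebra k G, (∀ d ∈ D, cg k d a = a) ∧
      b = ∑ q : G ⧸ D, cg k q.out a := by
  obtain ⟨W, _, _, ρ, i, q, hqi⟩ := h
  have _ := Fintype.ofFinite G
  have hbV : b ∈ LinearMap.range (LinearMap.mulRight k b) := ⟨b, hb.idem⟩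
  let vb : LinearMap.range (LinearMap.mulRight k b) := ⟨b, hbV⟩
  let E : LinearMap.range (LinearMap.mulRight k b) →ₗ[k] LinearMap.range (LinearMap.mulRight k b) :=
    q.toLinearMap ∘ₗ piIndR (diagHom D) ρ ∘ₗ i.toLinearMap
  have hi : ∀ (t : G × G) v, i (rp hb t v) = ind (diagHom D) ρ t (i v) := fun t v =>
    congrArg (fun f => f v) (i.isIntertwining' t)
  have hq : ∀ (t : G × G) v, q (ind (diagHom D) ρ t v) = rp hb t (q v) := fun t v =>
    congrArg (fun f => f v) (q.isIntertwining' t)
  have hE : ∀ v, E v = q (piIndR (diagHom D) ρ (i v)) := fun v => rfl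
  have hEd : ∀ (d : D) v, E (rp hb (diagHom D d) v) = rp hb (diagHom D d) (E v) := by
    intro d v
    rw [hE, hi, piIndR_comm, hq, hE]
  have hid : ∀ v, ∑ x : G ⧸ D, ∑ g : G, rp hb (g * x.out, x.out)
      (E (rp hb (g * x.out, x.out)⁻¹ v)) = v := by
    intro v
    conv_rhs => rw [← hqi v, ← sum_piIndR D ρ (i v)]
    rw [map_sum]
    refine Finset.sum_congr rfl fun x _ => ?_
    rw [map_sum]
    refine Finset.sum_congr rfl fun g _ => ?_
    rw [hq, hE, hi]
  have hrep : ∀ (t : G × G) (v : LinearMap.range (LinearMap.mulRight k b)),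
      (rp hb t v).1 = MonoidAlgebra.single t.1 1 * v.1 * MonoidAlgebra.single t.2⁻¹ 1 :=
    fun t v => rfl
  have hcomm : ∀ x, x * b = b * x := fun x => (Subalgebra.mem_center_iff.mp hb.central) x
  have hvb : ∀ u v : G, rp hb (u, v) vb = rp hb (u * v⁻¹, 1) vb := by
    intro u v
    apply Subtype.ext
    rw [hrep, hrep]
    change MonoidAlgebra.single u 1 * b * MonoidAlgebra.single v⁻¹ 1 =
      MonoidAlgebra.single (u * v⁻¹) 1 * b * MonoidAlgebra.single 1⁻¹ 1
    rw [mul_assoc, ← hcomm, ← mul_assoc, MonoidAlgebra.single_mul_single, one_mul, inv_one,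
      ← MonoidAlgebra.one_def, mul_one]
  let a : MonoidAlgebra k G := ∑ h : G, MonoidAlgebra.single h 1 * (E (rp hb (h⁻¹, 1) vb)).1
  have hcj : ∀ x : G, cg k x a = ∑ h : G, MonoidAlgebra.single (x * h) 1 *
      (E (rp hb (h⁻¹, 1) vb)).1 * MonoidAlgebra.single x⁻¹ 1 := by
    intro x
    rw [cg_eq]
    simp only [a]
    rw [Finset.mul_sum, Finset.sum_mul]
    refine Finset.sum_congr rfl fun h _ => ?_
    rw [← mul_assoc, MonoidAlgebra.single_mul_single, one_mul]
  have haF : ∀ d ∈ D, cg k d a = a := by
    intro d hd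
    rw [hcj]
    simp only [a]
    refine Fintype.sum_equiv (MulAut.conj d).toEquiv _ _ ?_
    intro h
    change MonoidAlgebra.single (d * h) 1 * (E (rp hb (h⁻¹, 1) vb)).1 *
      MonoidAlgebra.single d⁻¹ 1 = MonoidAlgebra.single (d * h * d⁻¹) 1 *
        (E (rp hb ((d * h * d⁻¹)⁻¹, 1) vb)).1
    have h1 : rp hb ((d * h * d⁻¹)⁻¹, 1) vb = rp hb (diagHom D ⟨d, hd⟩)
        (rp hb (h⁻¹, 1) vb) := by
      have h2 : rp hb (diagHom D ⟨d, hd⟩) (rp hb (h⁻¹, 1) vb) =
          rp hb (diagHom D ⟨d, hd⟩ * (h⁻¹, 1)) vb := by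
        rw [map_mul]; rfl
      have h3 : diagHom D ⟨d, hd⟩ * (h⁻¹, (1 : G)) = (d * h⁻¹, d * 1) := rfl
      rw [h2, h3, hvb (d * h⁻¹)]
      congr 3
      group
    rw [h1, hEd, hrep]
    change _ = MonoidAlgebra.single (d * h * d⁻¹) 1 * (MonoidAlgebra.single d 1 *
      (E (rp hb (h⁻¹, 1) vb)).1 * MonoidAlgebra.single d⁻¹ 1)
    simp only [← mul_assoc, MonoidAlgebra.single_mul_single, mul_one]
    congr 3
    group
  refine ⟨a, haF, ?_⟩
  have hbs := congrArg Subtype.val (hid vb)
  change _ = b at hbs
  rw [← hbs, AddSubmonoidClass.coe_finsetSum]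
  refine Finset.sum_congr rfl fun x _ => ?_
  rw [AddSubmonoidClass.coe_finsetSum, hcj]
  symm
  refine Fintype.sum_equiv (MulAut.conj x.out).toEquiv _ _ ?_
  intro h
  have h5 : rp hb (x.out * h * x.out⁻¹ * x.out, x.out)⁻¹ vb = rp hb (h⁻¹, 1) vb := by
    rw [Prod.inv_mk, hvb]
    congr 3
    group
  change _ = (rp hb (x.out * h * x.out⁻¹ * x.out, x.out)
      (E (rp hb (x.out * h * x.out⁻¹ * x.out, x.out)⁻¹ vb))).1
  rw [hrep, h5]
  have h6 : x.out * h * x.out⁻¹ * x.out = x.out * h := by group
  rw [h6]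


end Main

end Vale.Agent.P180.I
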